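import Mathlib

/-!
# Areas of parallelograms and triangles via the Euclidean Hausdorff measure
-/

open MeasureTheory Measure Set
open scoped ENNReal

set_option linter.unusedSectionVars false
set_option linter.unusedVariables false

noncomputable section

namespace Crest.Agent.Lib.Cyl

abbrev E2 := EuclideanSpace ℝ (Fin 2)
abbrev E3 := EuclideanSpace ℝ (Fin 3)

variable {V : Type*} [NormedAddCommGroup V] [InnerProductSpace ℝ V] [MeasurableSpace V]
  [BorelSpace V]

/-- Squared area of the parallelogram spanned by `a`, `b`. -/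
def gram (a b : V) : ℝ := ‖a‖ ^ 2 * ‖b‖ ^ 2 - (inner ℝ a b) ^ 2

lemma gram_nonneg (a b : V) : 0 ≤ gram a b := by
  have h := abs_real_inner_le_norm a b
  have h2 : (inner ℝ a b : ℝ) ^ 2 ≤ (‖a‖ * ‖b‖) ^ 2 := by
    rw [← sq_abs (inner ℝ a b : ℝ)]
    exact pow_le_pow_left₀ (abs_nonneg _) h 2
  unfold gram
  nlinarith

/-- The linear map `x ↦ x₀ a + x₁ b`. -/
def planeMap (a b : V) : E2 →ₗ[ℝ] V :=
  (LinearMap.toSpanSingleton ℝ V a).comp (EuclideanSpace.proj (0 : Fin 2) : E2 →L[ℝ] ℝ).toLinearMap +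
  (LinearMap.toSpanSingleton ℝ V b).comp (EuclideanSpace.proj (1 : Fin 2) : E2 →L[ℝ] ℝ).toLinearMap

@[simp] lemma planeMap_apply (a b : V) (x : E2) : planeMap a b x = x 0 • a + x 1 • b := by
  simp [planeMap]

lemma normDet_planeMap (a b : V) : (planeMap a b).normDet = Real.sqrt (gram a b) := by
  have h := LinearMap.normDet_sq_eq_det_gram (𝕜 := ℝ) (planeMap a b)
    (EuclideanSpace.basisFun (Fin 2) ℝ)
  have h2 : (planeMap a b).normDet ^ 2 = gram a b := by
    have h' : ((planeMap a b).normDet ^ 2 : ℝ) =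
        (Matrix.gram ℝ fun x => (planeMap a b) ((EuclideanSpace.basisFun (Fin 2) ℝ) x)).det := by
      simpa using h
    rw [h', Matrix.det_fin_two]
    simp [Matrix.gram, gram, real_inner_self_eq_norm_sq, real_inner_comm]
    ring
  rw [← h2, Real.sqrt_sq (LinearMap.normDet_nonneg _)]

lemma e2_two : Module.finrank ℝ E2 = 2 := by simp

/-- Unit square in `E2`. -/
def unitSquare : Set E2 := {x | x 0 ∈ Icc (0:ℝ) 1 ∧ x 1 ∈ Icc (0:ℝ) 1}

/-- Standard triangle in `E2`. -/
def stdTri : Set E2 := {x | 0 ≤ x 0 ∧ 0 ≤ x 1 ∧ x 0 + x 1 ≤ 1}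

lemma measurableSet_coord_le (f g : E2 → ℝ) (hf : Continuous f) (hg : Continuous g) :
    MeasurableSet {x | f x ≤ g x} := (isClosed_le hf hg).measurableSet

lemma cont0 : Continuous (fun x : E2 => x 0) := by fun_prop
lemma cont1 : Continuous (fun x : E2 => x 1) := by fun_prop

lemma isClosed_stdTri : IsClosed stdTri := by
  have : stdTri = {x | 0 ≤ x 0} ∩ ({x | 0 ≤ x 1} ∩ {x | x 0 + x 1 ≤ 1}) := by
    ext x; simp [stdTri]
  rw [this]
  exact (isClosed_le continuous_const cont0).inter
    ((isClosed_le continuous_const cont1).inter (isClosed_le (cont0.add cont1) continuous_const))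

lemma volume_unitSquare : volume unitSquare = 1 := by
  have hmp := PiLp.volume_preserving_ofLp (Fin 2)
  have : unitSquare = (@WithLp.ofLp 2 (Fin 2 → ℝ)) ⁻¹' (Icc (0 : Fin 2 → ℝ) 1) := by
    ext x
    simp only [unitSquare, mem_setOf_eq, mem_preimage, Pi.le_def, mem_Icc, Fin.forall_fin_two]
    simp
    tauto
  rw [this, hmp.measure_preimage (measurableSet_Icc).nullMeasurableSet, Real.volume_Icc_pi]
  simp

/-- reflection of the square -/
def flip2 : E2 → E2 := fun x => !₂[1 - x 0, 1 - x 1]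

@[simp] lemma flip2_0 (x : E2) : flip2 x 0 = 1 - x 0 := by simp [flip2]
@[simp] lemma flip2_1 (x : E2) : flip2 x 1 = 1 - x 1 := by simp [flip2]

lemma flip2_flip2 (x : E2) : flip2 (flip2 x) = x := by
  ext i; fin_cases i <;> simp

lemma flip2_eq (x : E2) : flip2 x = (!₂[1, 1] : E2) + (-x) := by
  ext i; fin_cases i <;> simp [flip2, sub_eq_add_neg]

lemma measurePreserving_flip2 : MeasurePreserving flip2 (volume : Measure E2) volume := by
  have h1 : MeasurePreserving (fun x : E2 => -x) (volume : Measure E2) volume :=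
    Measure.measurePreserving_neg volume
  have h2 : MeasurePreserving (fun x : E2 => (!₂[1, 1] : E2) + x) (volume : Measure E2) volume :=
    measurePreserving_add_left volume _
  have := h2.comp h1
  convert this using 1
  ext1 x
  exact flip2_eq x

lemma measurable_flip2 : Measurable flip2 := measurePreserving_flip2.measurable

/-- The line `x₀ + x₁ = 1` in `E2` is null. -/
lemma volume_line : volume {x : E2 | x 0 + x 1 = 1} = 0 := by
  -- it is contained in a translate of a proper submodule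
  let S : Submodule ℝ E2 := LinearMap.ker
    ((EuclideanSpace.proj (0 : Fin 2) : E2 →L[ℝ] ℝ).toLinearMap +
      (EuclideanSpace.proj (1 : Fin 2) : E2 →L[ℝ] ℝ).toLinearMap)
  have hS : S ≠ ⊤ := by
    intro h
    have : (!₂[1, 0] : E2) ∈ S := by rw [h]; trivial
    simp [S, LinearMap.mem_ker] at this
  have h0 : volume (S : Set E2) = 0 := Measure.addHaar_submodule volume S hS
  have hsub : {x : E2 | x 0 + x 1 = 1} ⊆ (fun y : E2 => (!₂[1, 0] : E2) + y) '' (S : Set E2) := by
    intro x hx
    refine ⟨x - !₂[1, 0], ?_, by simp⟩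
    simp only [SetLike.mem_coe, S, LinearMap.mem_ker]
    simp at hx ⊢
    linarith
  refine measure_mono_null hsub ?_
  rw [Set.image_add_left, measure_preimage_add]
  exact h0

/-- The standard triangle has area `1/2`. -/
lemma volume_stdTri : volume stdTri = ENNReal.ofReal (1 / 2) := by
  -- the square is the union of the triangle and its reflection
  have hcl : MeasurableSet stdTri := isClosed_stdTri.measurableSet
  have hflip : volume (flip2 ⁻¹' stdTri) = volume stdTri :=
    measurePreserving_flip2.measure_preimage hcl.nullMeasurableSet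
  have hcl' : MeasurableSet (flip2 ⁻¹' stdTri) := measurable_flip2 hcl
  have hun : unitSquare =ᵐ[volume] (stdTri ∪ flip2 ⁻¹' stdTri : Set E2) := by
    have hnull : ∀ᵐ x : E2, ¬ (x 0 + x 1 = 1) := by
      rw [ae_iff]; simpa using volume_line
    filter_upwards [hnull] with x hx
    apply propext
    change x ∈ unitSquare ↔ x ∈ stdTri ∪ flip2 ⁻¹' stdTri
    simp only [unitSquare, stdTri, mem_union, mem_preimage, mem_setOf_eq, mem_Icc, flip2_0, flip2_1]
    constructor
    · rintro ⟨⟨h1, h2⟩, h3, h4⟩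
      by_cases h : x 0 + x 1 ≤ 1
      · left; exact ⟨h1, h3, h⟩
      · right; refine ⟨by linarith, by linarith, by linarith⟩
    · rintro (⟨h1, h2, h3⟩ | ⟨h1, h2, h3⟩)
      · refine ⟨⟨h1, by linarith⟩, h2, by linarith⟩
      · refine ⟨⟨by linarith, by linarith⟩, by linarith, by linarith⟩
  have hinter : volume (stdTri ∩ flip2 ⁻¹' stdTri : Set E2) = 0 := by
    refine measure_mono_null ?_ volume_line
    rintro x ⟨⟨h1, h2, h3⟩, ⟨h4, h5, h6⟩⟩
    simp only [flip2_0, flip2_1] at h4 h5 h6
    simp only [mem_setOf_eq]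
    linarith
  have hsum : volume stdTri + volume stdTri = 1 := by
    have h1 := measure_union_add_inter (μ := (volume : Measure E2)) stdTri hcl'
    rw [hinter, add_zero, hflip] at h1
    rw [← h1, ← measure_congr hun, volume_unitSquare]
  have hfin : volume stdTri ≠ ∞ := by
    intro h; rw [h] at hsum; simp at hsum
  have hr : (volume stdTri).toReal + (volume stdTri).toReal = 1 := by
    rw [← ENNReal.toReal_add hfin hfin, hsum]; simp
  have : (volume stdTri).toReal = 1 / 2 := by linarith
  rw [← this, ENNReal.ofReal_toReal hfin]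

/-! ### Parallelograms and triangles -/

lemma measure_translate (c : V) (S : Set V) :
    (μHE[2] ((fun y => c + y) '' S) : ℝ≥0∞) = μHE[2] S :=
  (isometry_add_left c).euclideanHausdorffMeasure_image S

lemma area_image_planeMap (a b : V) (S : Set E2) :
    (μHE[2] (planeMap a b '' S) : ℝ≥0∞) = ENNReal.ofReal (Real.sqrt (gram a b)) * volume S := by
  have := (planeMap a b).euclideanHausdorffMeasure_image_eq_normDet_mul_volume S
  rw [e2_two, normDet_planeMap] at this
  exact this

/-- Parallelogram `{c + s a + t b}`. -/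
def para (c a b : V) : Set V :=
  {x | ∃ s ∈ Icc (0:ℝ) 1, ∃ t ∈ Icc (0:ℝ) 1, x = c + s • a + t • b}

lemma para_eq (c a b : V) : para c a b = (fun y => c + y) '' (planeMap a b '' unitSquare) := by
  ext x
  constructor
  · rintro ⟨s, hs, t, ht, rfl⟩
    refine ⟨_, ⟨!₂[s, t], ⟨?_, ?_⟩, rfl⟩, ?_⟩
    · simpa using hs
    · simpa using ht
    · simp [add_assoc]
  · rintro ⟨_, ⟨y, ⟨h0, h1⟩, rfl⟩, rfl⟩
    exact ⟨y 0, h0, y 1, h1, by simp [add_assoc]⟩

lemma area_para (c a b : V) :
    (μHE[2] (para c a b) : ℝ≥0∞) = ENNReal.ofReal (Real.sqrt (gram a b)) := by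
  rw [para_eq, measure_translate, area_image_planeMap, volume_unitSquare, mul_one]

lemma mem_convexHull_triple {W : Type*} [AddCommGroup W] [Module ℝ W] (p q r x : W) :
    x ∈ convexHull ℝ ({p, q, r} : Set W) ↔
      ∃ l1 l2 l3 : ℝ, 0 ≤ l1 ∧ 0 ≤ l2 ∧ 0 ≤ l3 ∧ l1 + l2 + l3 = 1 ∧
        x = l1 • p + l2 • q + l3 • r := by
  rw [convexHull_insert (by simp), convexHull_pair, mem_convexJoin]
  constructor
  · rintro ⟨a, ha, b, ⟨c, d, hc, hd, hcd, rfl⟩, ⟨e, f, he, hf, hef, rfl⟩⟩
    obtain rfl : a = p := by simpa using ha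
    refine ⟨e, f * c, f * d, he, by positivity, by positivity, ?_, ?_⟩
    · have : f * c + f * d = f := by rw [← mul_add, hcd, mul_one]
      linarith
    · simp [smul_add, smul_smul, add_assoc]
  · rintro ⟨l1, l2, l3, h1, h2, h3, hs, rfl⟩
    by_cases h : l2 + l3 = 0
    · have h2' : l2 = 0 := by linarith
      have h3' : l3 = 0 := by linarith
      have h1' : l1 = 1 := by linarith
      subst h2' h3' h1'
      refine ⟨p, by simp, q, left_mem_segment _ _ _, ?_⟩
      simpa using left_mem_segment ℝ p q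
    · have hpos : 0 < l2 + l3 := lt_of_le_of_ne (by positivity) (Ne.symm h)
      refine ⟨p, by simp, (l2 / (l2 + l3)) • q + (l3 / (l2 + l3)) • r,
        ⟨_, _, by positivity, by positivity, ?_, rfl⟩, ⟨l1, l2 + l3, h1, hpos.le, by linarith, ?_⟩⟩
      · field_simp
      · rw [smul_add, smul_smul, smul_smul, mul_div_cancel₀ _ h, mul_div_cancel₀ _ h, add_assoc]

lemma convexHull_triple_eq (p q r : V) :
    convexHull ℝ {p, q, r} = (fun y => p + y) '' (planeMap (q - p) (r - p) '' stdTri) := by
  ext x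
  rw [mem_convexHull_triple]
  constructor
  · rintro ⟨l1, l2, l3, h1, h2, h3, hs, rfl⟩
    refine ⟨_, ⟨!₂[l2, l3], ⟨?_, ?_, ?_⟩, rfl⟩, ?_⟩
    · simpa using h2
    · simpa using h3
    · simp; linarith
    · have : l1 = 1 - l2 - l3 := by linarith
      subst this
      simp [smul_sub, sub_smul]
      abel
  · rintro ⟨_, ⟨y, ⟨h0, h1, h2⟩, rfl⟩, rfl⟩
    refine ⟨1 - y 0 - y 1, y 0, y 1, by linarith, h0, h1, by ring, ?_⟩
    simp [smul_sub, sub_smul]
    abel

lemma area_triangle (p q r : V) :
    (μHE[2] (convexHull ℝ {p, q, r}) : ℝ≥0∞) =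
      ENNReal.ofReal (1 / 2 * Real.sqrt (gram (q - p) (r - p))) := by
  rw [convexHull_triple_eq, measure_translate, area_image_planeMap, volume_stdTri,
    ← ENNReal.ofReal_mul (Real.sqrt_nonneg _)]
  congr 1
  ring

lemma area_triangle_toReal (p q r : V) :
    (μHE[2] (convexHull ℝ {p, q, r}) : ℝ≥0∞).toReal = 1 / 2 * Real.sqrt (gram (q - p) (r - p)) := by
  rw [area_triangle, ENNReal.toReal_ofReal (by positivity)]

lemma area_para_toReal (c a b : V) :
    (μHE[2] (para c a b) : ℝ≥0∞).toReal = Real.sqrt (gram a b) := by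
  rw [area_para, ENNReal.toReal_ofReal (by positivity)]

end Crest.Agent.Lib.Cyl
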