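import Crest.Agent.Lib.Cyl.Area

/-!
# Charts of planes in `E3`, coordinates, projections
-/

open MeasureTheory Measure Set
open scoped ENNReal

set_option linter.unusedSectionVars false
set_option linter.unusedVariables false

noncomputable section

namespace Crest.Agent.Lib.Cyl

/-! ### Coordinates in `E2`, `E3` -/

lemma norm_sq_E3 (a : E3) : ‖a‖ ^ 2 = a 0 ^ 2 + a 1 ^ 2 + a 2 ^ 2 := by
  rw [EuclideanSpace.real_norm_sq_eq, Fin.sum_univ_three]

lemma norm_sq_E2 (a : E2) : ‖a‖ ^ 2 = a 0 ^ 2 + a 1 ^ 2 := by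
  rw [EuclideanSpace.real_norm_sq_eq, Fin.sum_univ_two]

lemma inner_E3 (a b : E3) : inner ℝ a b = a 0 * b 0 + a 1 * b 1 + a 2 * b 2 := by
  simp only [PiLp.inner_apply, Fin.sum_univ_three, RCLike.inner_apply, conj_trivial]
  ring

lemma inner_E2 (a b : E2) : inner ℝ a b = a 0 * b 0 + a 1 * b 1 := by
  simp only [PiLp.inner_apply, Fin.sum_univ_two, RCLike.inner_apply, conj_trivial]
  ring

/-- cross product in `E2`. -/
def cross2 (a b : E2) : ℝ := a 0 * b 1 - a 1 * b 0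

lemma gram_E2 (a b : E2) : gram a b = cross2 a b ^ 2 := by
  unfold gram cross2
  rw [norm_sq_E2, norm_sq_E2, inner_E2]
  ring

lemma sqrt_gram_E2 (a b : E2) : Real.sqrt (gram a b) = |cross2 a b| := by
  rw [gram_E2, Real.sqrt_sq_eq_abs]

/-- determinant in `E3`. -/
def det3 (v a b : E3) : ℝ :=
  v 0 * (a 1 * b 2 - a 2 * b 1) - v 1 * (a 0 * b 2 - a 2 * b 0) + v 2 * (a 0 * b 1 - a 1 * b 0)

/-- orthogonal projection along the unit vector `v`. -/
def proj (v : E3) : E3 →ₗ[ℝ] E3 :=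
  LinearMap.id - (LinearMap.toSpanSingleton ℝ E3 v).comp (innerSL ℝ v : E3 →L[ℝ] ℝ).toLinearMap

lemma proj_apply (v y : E3) : proj v y = y - inner ℝ y v • v := by
  simp [proj, real_inner_comm]

lemma proj_fun (v : E3) : (fun y : E3 => y - inner ℝ y v • v) = proj v := by
  ext1 y; rw [proj_apply]

lemma inner_proj_self (v : E3) (hv : ‖v‖ = 1) (y : E3) : inner ℝ (proj v y) v = 0 := by
  rw [proj_apply, inner_sub_left, inner_smul_left, real_inner_self_eq_norm_sq, hv]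
  simp

lemma inner_proj_proj (v : E3) (hv : ‖v‖ = 1) (x y : E3) :
    inner ℝ (proj v x) (proj v y) = inner ℝ x y - inner ℝ x v * inner ℝ y v := by
  rw [proj_apply, proj_apply]
  simp only [inner_sub_left, inner_sub_right, inner_smul_left, inner_smul_right,
    real_inner_self_eq_norm_sq, hv]
  simp [real_inner_comm]

lemma norm_sq_proj (v : E3) (hv : ‖v‖ = 1) (x : E3) :
    ‖proj v x‖ ^ 2 = ‖x‖ ^ 2 - inner ℝ x v ^ 2 := by
  rw [← real_inner_self_eq_norm_sq, inner_proj_proj v hv, real_inner_self_eq_norm_sq]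
  ring

/-- The Gram determinant of projected vectors is the squared determinant. -/
lemma gram_proj (v : E3) (hv : ‖v‖ = 1) (a b : E3) :
    gram (proj v a) (proj v b) = det3 v a b ^ 2 := by
  have h1 : v 0 ^ 2 + v 1 ^ 2 + v 2 ^ 2 = 1 := by
    rw [← norm_sq_E3, hv]; norm_num
  unfold gram det3
  rw [norm_sq_proj v hv, norm_sq_proj v hv, inner_proj_proj v hv]
  simp only [norm_sq_E3, inner_E3]
  linear_combination
    (-( (a 0 ^ 2 + a 1 ^ 2 + a 2 ^ 2) * (b 0 ^ 2 + b 1 ^ 2 + b 2 ^ 2)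
      - (a 0 * b 0 + a 1 * b 1 + a 2 * b 2) ^ 2)) * h1

lemma sqrt_gram_proj (v : E3) (hv : ‖v‖ = 1) (a b : E3) :
    Real.sqrt (gram (proj v a) (proj v b)) = |det3 v a b| := by
  rw [gram_proj v hv, Real.sqrt_sq_eq_abs]

/-! ### Charts -/

lemma exists_chart (v : E3) (hv : ‖v‖ = 1) :
    ∃ f : E2 →ₗᵢ[ℝ] E3, (∀ x, inner ℝ (f x) v = 0) ∧ (∀ y : E3, inner ℝ y v = 0 → ∃ x, f x = y) := by
  have hv0 : v ≠ 0 := by
    intro h; rw [h] at hv; simp at hv
  have : Fact (Module.finrank ℝ E3 = 2 + 1) := ⟨by simp⟩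
  have hfr : Module.finrank ℝ (ℝ ∙ v)ᗮ = 2 := Submodule.finrank_orthogonal_span_singleton hv0
  let b := (stdOrthonormalBasis ℝ (ℝ ∙ v)ᗮ).reindex (finCongr hfr)
  let g : E2 ≃ₗᵢ[ℝ] (ℝ ∙ v)ᗮ := b.repr.symm
  refine ⟨(ℝ ∙ v)ᗮ.subtypeₗᵢ.comp g.toLinearIsometry, ?_, ?_⟩
  · intro x
    have : ((g x : (ℝ ∙ v)ᗮ) : E3) ∈ (ℝ ∙ v)ᗮ := (g x).2
    rw [Submodule.mem_orthogonal_singleton_iff_inner_left] at this
    simpa using this
  · intro y hy
    have hy' : y ∈ (ℝ ∙ v)ᗮ := by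
      rwa [Submodule.mem_orthogonal_singleton_iff_inner_left]
    refine ⟨g.symm ⟨y, hy'⟩, by simp⟩

/-- Bounded sets in a plane have finite area. -/
lemma area_lt_top_of_bounded (v : E3) (hv : ‖v‖ = 1) (S : Set E3) (hS : Bornology.IsBounded S)
    (hSv : ∀ y ∈ S, inner ℝ y v = 0) : (μHE[2] S : ℝ≥0∞) < ∞ := by
  obtain ⟨f, hf1, hf2⟩ := exists_chart v hv
  obtain ⟨R, hR⟩ := hS.subset_closedBall 0
  have hsub : S ⊆ f '' (Metric.closedBall 0 R) := by
    intro y hy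
    obtain ⟨x, rfl⟩ := hf2 y (hSv y hy)
    refine ⟨x, ?_, rfl⟩
    have := hR hy
    simpa using this
  calc (μHE[2] S : ℝ≥0∞) ≤ μHE[2] (f '' (Metric.closedBall 0 R)) := measure_mono hsub
    _ = μHE[2] (Metric.closedBall (0 : E2) R) := f.isometry.euclideanHausdorffMeasure_image _
    _ = volume (Metric.closedBall (0 : E2) R) := by
        rw [EuclideanSpace.euclideanHausdorffMeasure_eq_volume]
    _ < ∞ := measure_closedBall_lt_top

end Crest.Agent.Lib.Cyl
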