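import Mathlib

/-!
# Real-number core of the fan covering of the tetrahedron

Normalized coordinates `(x, y, v)` on the tetrahedron: `|x| ≤ v/2`, `|y| ≤ 1 - v/2`, `0 ≤ v ≤ 2`.
-/

set_option linter.unusedVariables false

noncomputable section

namespace Crest.Agent.Lib.Cyl

/-- The splitting function. -/
def eFn (a x y : ℝ) : ℝ := 2 * a * x * y + a ^ 2 * ((y ^ 2 - x ^ 2) / 2 + y ^ 4 - x ^ 4)

lemma eFn_symm (a x y : ℝ) : eFn a y (-x) = - eFn a x y := by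
  unfold eFn; ring

/-- Exact radial coordinates. -/
lemma radial (a x y v : ℝ) (ha : 0 < a) (hv : 0 ≤ v) (hx : |x| ≤ v / 2) :
    ∃ r θ : ℝ, 0 ≤ r ∧ |θ| ≤ 1 ∧ r ^ 2 = v ^ 2 + 4 * a * x * y + a ^ 2 * y ^ 2 ∧
      v = r - a * y * θ ∧ x = 1 / 2 * θ * r - a / 4 * y * (1 + θ ^ 2) := by
  have hx' := abs_le.mp hx
  have hxy : |4 * a * x * y| ≤ 2 * a * |y| * v := by
    rw [show 4 * a * x * y = (4 * a) * x * y by ring, abs_mul, abs_mul, abs_of_pos (by positivity : 0 < 4 * a)]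
    have := abs_nonneg y
    nlinarith [mul_nonneg (mul_nonneg ha.le this) (sub_nonneg.mpr hx)]
  have hxy' := abs_le.mp hxy
  have hy2 : a ^ 2 * y ^ 2 = (a * |y|) ^ 2 := by rw [mul_pow, sq_abs]
  set A := a * |y| with hA
  have hA0 : 0 ≤ A := by positivity
  have hup : v ^ 2 + 4 * a * x * y + a ^ 2 * y ^ 2 ≤ (v + A) ^ 2 := by
    rw [hy2]; nlinarith [hxy'.2]
  have hlo : (v - A) ^ 2 ≤ v ^ 2 + 4 * a * x * y + a ^ 2 * y ^ 2 := by
    rw [hy2]; nlinarith [hxy'.1]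
  have hs0 : 0 ≤ v ^ 2 + 4 * a * x * y + a ^ 2 * y ^ 2 := le_trans (sq_nonneg _) hlo
  set s := v ^ 2 + 4 * a * x * y + a ^ 2 * y ^ 2 with hs
  set r := Real.sqrt s with hr
  have hr0 : 0 ≤ r := Real.sqrt_nonneg _
  have hr2 : r ^ 2 = s := Real.sq_sqrt hs0
  have hr_up : r ≤ v + A := by
    apply abs_le_of_sq_le_sq' _ (by positivity) |>.2
    rw [hr2]; exact hup
  have hr_lo : v - A ≤ r := by
    have : (v - A) ^ 2 ≤ r ^ 2 := by rw [hr2]; exact hlo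
    exact (abs_le_of_sq_le_sq' this hr0).2
  by_cases h0 : r + v = 0
  · -- degenerate point
    have hr' : r = 0 := by linarith
    have hv' : v = 0 := by linarith
    have hx0 : x = 0 := by
      subst hv'
      have : |x| ≤ 0 := by simpa using hx
      simpa using this
    have hy0 : y = 0 := by
      have : s = a ^ 2 * y ^ 2 := by rw [hs, hv', hx0]; ring
      rw [hr', ] at hr2
      have h3 : a ^ 2 * y ^ 2 = 0 := by rw [← this, ← hr2]; ring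
      have h4 : y ^ 2 = 0 := by
        rcases mul_eq_zero.mp h3 with h | h
        · exact absurd h (by positivity)
        · exact h
      simpa using h4
    have hs00 : s = 0 := by rw [hs, hv', hx0, hy0]; ring
    refine ⟨0, 0, le_refl _, by simp, by rw [hs00]; ring, by rw [hv']; ring, ?_⟩
    rw [hx0, hy0]; ring
  · have hpos : 0 < r + v := lt_of_le_of_ne (by positivity) (Ne.symm h0)
    set θ := (4 * x + a * y) / (r + v) with hθ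
    have hθm : θ * (r + v) = 4 * x + a * y := by rw [hθ]; field_simp
    have hid : a * y * θ = r - v := by
      have : (a * y * θ) * (r + v) = (r - v) * (r + v) := by
        have h1 : (r - v) * (r + v) = r ^ 2 - v ^ 2 := by ring
        rw [h1, hr2, hs]
        calc a * y * θ * (r + v) = a * y * (θ * (r + v)) := by ring
          _ = _ := by rw [hθm]; ring
      exact mul_right_cancel₀ h0 this
    refine ⟨r, θ, hr0, ?_, hr2, by linarith, ?_⟩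
    · -- |θ| ≤ 1
      by_cases hy : y = 0
      · have hrv : r = v := by
          have : A = 0 := by simp [hA, hy]
          rw [this] at hr_up hr_lo
          linarith
        rw [hθ, abs_div, abs_of_pos hpos, div_le_one hpos, hy, hrv]
        have : |4 * x + a * 0| = 4 * |x| := by
          rw [mul_zero, add_zero, abs_mul]; norm_num
        rw [this]
        linarith
      · have hAy : 0 < A := by
          have : 0 < |y| := abs_pos.mpr hy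
          positivity
        have h1 : |a * y * θ| = A * |θ| := by
          rw [abs_mul, abs_mul, abs_of_pos ha]
        have h2 : |r - v| ≤ A := by
          rw [abs_le]; constructor <;> linarith
        rw [hid] at h1
        rw [h1] at h2
        by_contra hc
        push Not at hc
        nlinarith
    · -- x-identity
      have e1 : θ * r - a * y * θ ^ 2 / 2 = θ * (r + v) / 2 := by
        have : a * y * θ ^ 2 = (a * y * θ) * θ := by ring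
        rw [this, hid]; ring
      have e2 : 1 / 2 * θ * r - a / 4 * y * (1 + θ ^ 2)
          = (θ * r - a * y * θ ^ 2 / 2) / 2 - a / 4 * y := by ring
      rw [e2, e1, hθm]; ring

lemma aux_xy (x y v : ℝ) (hv : 0 ≤ v) (hx : |x| ≤ v / 2) (hy : |y| ≤ 1 - v / 2) :
    |x * y| ≤ 1 / 4 := by
  rw [abs_mul]
  have h1 : |x| * |y| ≤ v / 2 * (1 - v / 2) :=
    mul_le_mul hx hy (abs_nonneg _) (by positivity)
  nlinarith [sq_nonneg (v / 2 - 1 / 2)]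

lemma aux_sq_le {t B : ℝ} (h : |t| ≤ B) : t ^ 2 ≤ B ^ 2 := by
  rw [← sq_abs]; exact pow_le_pow_left₀ (abs_nonneg _) h 2

lemma aux_four_le {t B : ℝ} (h : |t| ≤ B) : t ^ 4 ≤ B ^ 4 := by
  have h1 := aux_sq_le h
  have : t ^ 4 = (t ^ 2) ^ 2 := by ring
  rw [this, show B ^ 4 = (B ^ 2) ^ 2 by ring]
  exact pow_le_pow_left₀ (sq_nonneg t) h1 2

lemma aux_sig (x y : ℝ) (hx : |x| ≤ 1) (hy : |y| ≤ 1) :
    |(y ^ 2 - x ^ 2) / 2 + y ^ 4 - x ^ 4| ≤ 3 / 2 := by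
  have h1 := aux_sq_le hx
  have h2 := aux_sq_le hy
  have h3 := aux_four_le hx
  have h4 := aux_four_le hy
  rw [one_pow] at h1 h2 h3 h4
  have h5 : 0 ≤ x ^ 2 := sq_nonneg x
  have h6 : 0 ≤ y ^ 2 := sq_nonneg y
  have h7 : 0 ≤ x ^ 4 := by positivity
  have h8 : 0 ≤ y ^ 4 := by positivity
  rw [abs_le]; constructor <;> linarith

lemma aux_alg (a x y v : ℝ) (hv : 0 ≤ v) (htop : v ≤ 1 - eFn a x y) :
    v ^ 2 + 4 * a * x * y + a ^ 2 * y ^ 2 ≤ 1 + a ^ 2 * (x ^ 2 + 4 * x ^ 4) +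
      4 * a * (x * y) * (a ^ 2 * ((y ^ 2 - x ^ 2) / 2 + y ^ 4 - x ^ 4)) +
      (a ^ 2 * ((y ^ 2 - x ^ 2) / 2 + y ^ 4 - x ^ 4)) ^ 2 := by
  have hv2 : v ^ 2 ≤ (1 - eFn a x y) ^ 2 := pow_le_pow_left₀ hv htop 2
  have hid : (1 - eFn a x y) ^ 2 + 4 * a * x * y + a ^ 2 * y ^ 2
      = 1 + a ^ 2 * (x ^ 2 + 4 * x ^ 4) +
        4 * a * (x * y) * (a ^ 2 * ((y ^ 2 - x ^ 2) / 2 + y ^ 4 - x ^ 4)) +
        (a ^ 2 * ((y ^ 2 - x ^ 2) / 2 + y ^ 4 - x ^ 4)) ^ 2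
        - 2 * a ^ 2 * (x ^ 2 - y ^ 2) ^ 2 := by
    unfold eFn; ring
  have : 0 ≤ 2 * a ^ 2 * (x ^ 2 - y ^ 2) ^ 2 := by positivity
  linarith

lemma aux_poly (ξ e' : ℝ) (hξ0 : 0 ≤ ξ) (hξ1 : ξ ≤ 1 / 2) (he0 : 0 ≤ e') (he1 : e' ≤ 1 / 1000) :
    (ξ + e') ^ 2 + 4 * (ξ + e') ^ 4 ≤ ξ ^ 2 + 4 * ξ ^ 4 + e' * (3 + 1 / 100) := by
  have hid : (ξ + e') ^ 2 + 4 * (ξ + e') ^ 4 = ξ ^ 2 + 4 * ξ ^ 4 +
      e' * (2 * ξ + 16 * ξ ^ 3 + e' * (1 + 24 * ξ ^ 2 + 16 * ξ * e' + 4 * e' ^ 2)) := by ring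
  rw [hid]
  have h1 : ξ ^ 2 ≤ 1 / 4 := by nlinarith
  have h2 : ξ ^ 3 ≤ 1 / 8 := by
    have : ξ ^ 3 = ξ * ξ ^ 2 := by ring
    rw [this]
    have := mul_le_mul hξ1 h1 (sq_nonneg ξ) (by norm_num)
    linarith
  have h4 : ξ * e' ≤ 1 / 2 * (1 / 1000) := mul_le_mul hξ1 he1 he0 (by norm_num)
  have h5 : e' ^ 2 ≤ (1 / 1000) ^ 2 := pow_le_pow_left₀ he0 he1 2
  have h6 : 1 + 24 * ξ ^ 2 + 16 * ξ * e' + 4 * e' ^ 2 ≤ 10 := by
    have : 16 * ξ * e' = 16 * (ξ * e') := by ring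
    norm_num at h5
    linarith
  have h7 : e' * (1 + 24 * ξ ^ 2 + 16 * ξ * e' + 4 * e' ^ 2) ≤ 1 / 1000 * 10 :=
    mul_le_mul he1 h6 (by positivity) (by norm_num)
  have h8 : 2 * ξ + 16 * ξ ^ 3 + e' * (1 + 24 * ξ ^ 2 + 16 * ξ * e' + 4 * e' ^ 2) ≤ 3 + 1 / 100 := by
    linarith
  exact add_le_add_right (mul_le_mul_of_nonneg_left h8 he0) _

lemma aux_xbd (a y r θ : ℝ) (ha : 0 < a) (ha' : a ≤ 1 / 1000) (hy : |y| ≤ 1) (hθ : |θ| ≤ 1)
    (hr : 0 ≤ r) (hr1 : r ≤ 1 + a ^ 2 * (26 / 100)) :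
    |1 / 2 * θ * r - a / 4 * y * (1 + θ ^ 2)| ≤ |θ| / 2 + a * (5002 / 10000) := by
  have h1 : |1 / 2 * θ * r| = |θ| / 2 * r := by
    rw [abs_mul, abs_mul, abs_of_nonneg hr, abs_of_pos (by norm_num : (0:ℝ) < 1 / 2)]
    ring
  have hθ2 : θ ^ 2 ≤ 1 := by simpa using aux_sq_le hθ
  have h2 : |a / 4 * y * (1 + θ ^ 2)| ≤ a / 2 := by
    rw [abs_mul, abs_mul, abs_of_pos (by positivity : 0 < a / 4),
      abs_of_pos (by positivity : 0 < 1 + θ ^ 2)]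
    have h3 : a / 4 * |y| ≤ a / 4 * 1 := mul_le_mul_of_nonneg_left hy (by positivity)
    have h4 : a / 4 * |y| * (1 + θ ^ 2) ≤ a / 4 * 1 * 2 :=
      mul_le_mul h3 (by linarith) (by positivity) (by positivity)
    linarith
  have h3 := abs_sub (1 / 2 * θ * r) (a / 4 * y * (1 + θ ^ 2))
  rw [h1] at h3
  have hξ0 : 0 ≤ |θ| / 2 := by positivity
  have h4 : |θ| / 2 * r ≤ |θ| / 2 * (1 + a ^ 2 * (26 / 100)) :=
    mul_le_mul_of_nonneg_left hr1 hξ0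
  have h5 : |θ| / 2 * (a ^ 2 * (26 / 100)) ≤ 1 / 2 * (a ^ 2 * (26 / 100)) :=
    mul_le_mul_of_nonneg_right (by linarith) (by positivity)
  have h6 : a ^ 2 ≤ a * (1 / 1000) := by
    rw [sq]; exact mul_le_mul_of_nonneg_left ha' ha.le
  linarith

lemma aux_rsq_le (a s : ℝ) (ha0 : 0 ≤ a) (hr : 0 ≤ s) (h : s ^ 2 ≤ 1 + a ^ 2 * (51 / 100)) :
    s ≤ 1 + a ^ 2 * (26 / 100) := by
  by_contra hc
  push Not at hc
  have h1 : (1 + a ^ 2 * (26 / 100)) ^ 2 < s ^ 2 := pow_lt_pow_left₀ hc (by positivity) (by norm_num)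
  have h2 : 0 ≤ a ^ 2 := by positivity
  nlinarith [sq_nonneg (a ^ 2)]

/-- Main radial bound on the top region. -/
lemma rbound (a x y v r θ : ℝ) (ha : 0 < a) (ha' : a ≤ 1 / 1000) (hv : 0 ≤ v) (hx : |x| ≤ v / 2)
    (hy : |y| ≤ 1 - v / 2) (htop : v ≤ 1 - eFn a x y) (hr : 0 ≤ r) (hθ : |θ| ≤ 1)
    (hr2 : r ^ 2 = v ^ 2 + 4 * a * x * y + a ^ 2 * y ^ 2)
    (hxr : x = 1 / 2 * θ * r - a / 4 * y * (1 + θ ^ 2)) :
    r ^ 2 ≤ 1 + a ^ 2 / 4 * (θ ^ 2 + θ ^ 4) + 301 / 100 * a ^ 3 := by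
  have hax : 0 ≤ |x| := abs_nonneg x
  have hay : 0 ≤ |y| := abs_nonneg y
  have hxy : |x * y| ≤ 1 / 4 := aux_xy x y v hv hx hy
  have hy1 : |y| ≤ 1 := by linarith
  have ha20 : 0 < a ^ 2 := by positivity
  have ha2 : a ^ 2 ≤ a * (1 / 1000) := by
    rw [sq]; exact mul_le_mul_of_nonneg_left ha' ha.le
  have hx1 : |x| ≤ 1 := by linarith
  have hsig := aux_sig x y hx1 hy1
  set σ := (y ^ 2 - x ^ 2) / 2 + y ^ 4 - x ^ 4 with hσ
  have hσ' := abs_le.mp hsig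
  have hxy' := abs_le.mp hxy
  -- e lower bound
  have he : eFn a x y = 2 * a * (x * y) + a ^ 2 * σ := by unfold eFn; rw [hσ]; ring
  have hevb : -(a * (1 / 2 + 1 / 500)) ≤ eFn a x y := by
    rw [he]
    have h1 : 2 * a * (-(1 / 4)) ≤ 2 * a * (x * y) :=
      mul_le_mul_of_nonneg_left hxy'.1 (by positivity)
    have h2 : a ^ 2 * (-(3 / 2)) ≤ a ^ 2 * σ :=
      mul_le_mul_of_nonneg_left hσ'.1 ha20.le
    linarith
  have hvup3 : v ≤ 1 + 1 / 1000 := by linarith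
  have hx5 : |x| ≤ 1 / 2 + 1 / 1000 := by linarith
  have hx21 := aux_sq_le hx5
  have hx41 := aux_four_le hx5
  have hr2up := aux_alg a x y v hv htop
  rw [← hσ, ← hr2] at hr2up
  have hmix : 4 * a * (x * y) * (a ^ 2 * σ) ≤ a ^ 2 * (a * (3 / 2)) := by
    have h1 : |x * y * σ| ≤ 1 / 4 * (3 / 2) := by
      rw [abs_mul]
      exact mul_le_mul hxy hsig (abs_nonneg _) (by norm_num)
    have h2 := (abs_le.mp h1).2
    have h3 : (a ^ 2 * a) * (4 * (x * y * σ)) ≤ (a ^ 2 * a) * (4 * (1 / 4 * (3 / 2))) :=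
      mul_le_mul_of_nonneg_left (by linarith) (by positivity)
    calc 4 * a * (x * y) * (a ^ 2 * σ) = (a ^ 2 * a) * (4 * (x * y * σ)) := by ring
      _ ≤ _ := h3
      _ = _ := by ring
  have hς3 : (a ^ 2 * σ) ^ 2 ≤ a ^ 2 * (1 / 1000 * a * (9 / 4)) := by
    have h1 : σ ^ 2 ≤ (3 / 2) ^ 2 := aux_sq_le hsig
    have h2 : (a ^ 2 * σ) ^ 2 = a ^ 2 * (a ^ 2 * σ ^ 2) := by ring
    rw [h2]
    apply mul_le_mul_of_nonneg_left _ ha20.le
    have h3 : a ^ 2 * σ ^ 2 ≤ (a * (1 / 1000)) * (3 / 2) ^ 2 :=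
      mul_le_mul ha2 h1 (sq_nonneg σ) (by positivity)
    linarith
  have hr21 : r ^ 2 ≤ 1 + a ^ 2 * (51 / 100) := by
    have hq : x ^ 2 + 4 * x ^ 4 ≤ (1 / 2 + 1 / 1000) ^ 2 + 4 * (1 / 2 + 1 / 1000) ^ 4 := by linarith
    have hq2 : (1 / 2 + 1 / 1000 : ℝ) ^ 2 + 4 * (1 / 2 + 1 / 1000) ^ 4 ≤ 504 / 1000 := by norm_num
    have h3 : a ^ 2 * (x ^ 2 + 4 * x ^ 4) ≤ a ^ 2 * (504 / 1000) :=
      mul_le_mul_of_nonneg_left (hq.trans hq2) ha20.le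
    have h4 : a ^ 2 * (a * (3 / 2)) ≤ a ^ 2 * ((1 / 1000) * (3 / 2)) :=
      mul_le_mul_of_nonneg_left (by linarith) ha20.le
    have h5 : a ^ 2 * (1 / 1000 * a * (9 / 4)) ≤ a ^ 2 * (1 / 1000 * (1 / 1000) * (9 / 4)) :=
      mul_le_mul_of_nonneg_left (by linarith) ha20.le
    linarith
  have hr1 := aux_rsq_le a r ha.le hr hr21
  -- bound x by θ
  have hxbd : |x| ≤ |θ| / 2 + a * (5002 / 10000) := by
    conv_lhs => rw [hxr]
    exact aux_xbd a y r θ ha ha' hy1 hθ hr hr1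
  set ξ := |θ| / 2 with hξ
  have hξ0 : 0 ≤ ξ := by positivity
  have hξ1 : ξ ≤ 1 / 2 := by rw [hξ]; linarith
  have hθ2 : θ ^ 2 = 4 * ξ ^ 2 := by rw [hξ, div_pow, sq_abs]; ring
  set e' := a * (5002 / 10000) with he'
  have he'0 : 0 ≤ e' := by positivity
  have he'1 : e' ≤ 1 / 1000 := by rw [he']; linarith
  have hx2b := aux_sq_le hxbd
  have hx4b := aux_four_le hxbd
  have hpoly := aux_poly ξ e' hξ0 hξ1 he'0 he'1
  have hq : x ^ 2 + 4 * x ^ 4 ≤ 1 / 4 * (θ ^ 2 + θ ^ 4) + a * (1506 / 1000) := by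
    have h1 : ξ ^ 2 + 4 * ξ ^ 4 = 1 / 4 * (θ ^ 2 + θ ^ 4) := by
      have : θ ^ 4 = (θ ^ 2) ^ 2 := by ring
      rw [this, hθ2]; ring
    have h2 : e' * (3 + 1 / 100) ≤ a * (1506 / 1000) := by
      rw [he']; linarith
    linarith
  have hfinal : a ^ 2 * (x ^ 2 + 4 * x ^ 4) ≤
      a ^ 2 * (1 / 4 * (θ ^ 2 + θ ^ 4) + a * (1506 / 1000)) :=
    mul_le_mul_of_nonneg_left hq ha20.le
  have a3 : 0 ≤ a ^ 3 := by positivity
  have hfin2 : a ^ 2 * (1 / 1000 * a * (9 / 4)) = 9 / 4000 * a ^ 3 := by ring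
  have hfin3 : a ^ 2 * (a * (3 / 2)) = 3 / 2 * a ^ 3 := by ring
  have hfin4 : a ^ 2 * (1 / 4 * (θ ^ 2 + θ ^ 4) + a * (1506 / 1000)) =
      a ^ 2 / 4 * (θ ^ 2 + θ ^ 4) + 1506 / 1000 * a ^ 3 := by ring
  linarith

/-- The wedge inclusion in normalized coordinates. -/
lemma wedge_incl (a k x y v r θ γ : ℝ) (ha : 0 < a) (hk : 0 < k) (hr : 0 ≤ r)
    (hy : |y| ≤ 1) (hθγ : |θ - γ| ≤ k / 2)
    (hv : v = r - a * y * θ) (hxr : x = 1 / 2 * θ * r - a / 4 * y * (1 + θ ^ 2)) :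
    -(5 / 4 * a * k) ≤ v + a * y * γ ∧ v + a * y * γ ≤ r + a * k / 2 ∧
    |x + a / 4 * y * (1 + γ ^ 2) - 1 / 2 * γ * (v + a * y * γ)| ≤
      k / 4 * (v + a * y * γ + 5 / 4 * a * k) := by
  have hay : |a * y * (γ - θ)| ≤ a * k / 2 := by
    rw [abs_mul, abs_mul, abs_of_pos ha, abs_sub_comm γ θ]
    have : |y| * |θ - γ| ≤ 1 * (k / 2) :=
      mul_le_mul hy hθγ (abs_nonneg _) (by norm_num)
    nlinarith
  have hay' := abs_le.mp hay
  set vb := v + a * y * γ with hvb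
  have hvb' : vb = r + a * y * (γ - θ) := by rw [hvb, hv]; ring
  have hxb : x + a / 4 * y * (1 + γ ^ 2) = 1 / 2 * θ * vb + a / 4 * y * (γ - θ) ^ 2 := by
    rw [hvb', hxr]; ring
  have hE : |a / 4 * y * (γ - θ) ^ 2| ≤ a * k ^ 2 / 16 := by
    rw [abs_mul, abs_mul, abs_of_pos (by positivity : 0 < a / 4), abs_of_nonneg (sq_nonneg (γ - θ))]
    have h1 : (γ - θ) ^ 2 ≤ (k / 2) ^ 2 := by
      rw [← sq_abs, abs_sub_comm]
      exact pow_le_pow_left₀ (abs_nonneg _) hθγ 2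
    have h2 : |y| * (γ - θ) ^ 2 ≤ 1 * (k / 2) ^ 2 :=
      mul_le_mul hy h1 (sq_nonneg _) (by norm_num)
    have : a / 4 * (|y| * (γ - θ) ^ 2) ≤ a / 4 * (1 * (k / 2) ^ 2) :=
      mul_le_mul_of_nonneg_left h2 (by positivity)
    nlinarith
  refine ⟨by nlinarith [hay'.1], by linarith [hay'.2], ?_⟩
  rw [hxb]
  have h1 : 1 / 2 * θ * vb + a / 4 * y * (γ - θ) ^ 2 - 1 / 2 * γ * vb
      = 1 / 2 * (θ - γ) * vb + a / 4 * y * (γ - θ) ^ 2 := by ring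
  rw [h1]
  have hvbabs : |vb| ≤ vb + 5 / 4 * a * k - a * k / 4 := by
    -- vb ≥ -ak/2
    rcases le_total 0 vb with h | h
    · rw [abs_of_nonneg h]; nlinarith
    · rw [abs_of_nonpos h]
      have : -(a * k / 2) ≤ vb := by rw [hvb']; linarith [hay'.1]
      nlinarith
  have h2 : |1 / 2 * (θ - γ) * vb| ≤ k / 4 * |vb| := by
    rw [abs_mul, abs_mul, abs_of_pos (by norm_num : (0:ℝ) < 1 / 2)]
    have : |θ - γ| * |vb| ≤ k / 2 * |vb| := mul_le_mul_of_nonneg_right hθγ (abs_nonneg _)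
    nlinarith
  calc |1 / 2 * (θ - γ) * vb + a / 4 * y * (γ - θ) ^ 2|
      ≤ |1 / 2 * (θ - γ) * vb| + |a / 4 * y * (γ - θ) ^ 2| := abs_add_le _ _
    _ ≤ k / 4 * |vb| + a * k ^ 2 / 16 := add_le_add h2 hE
    _ ≤ k / 4 * (vb + 5 / 4 * a * k - a * k / 4) + a * k ^ 2 / 16 := by
        have := mul_le_mul_of_nonneg_left hvbabs (by positivity : 0 ≤ k / 4)
        linarith
    _ = k / 4 * (vb + 5 / 4 * a * k) := by ring

end Crest.Agent.Lib.Cyl
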