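import Crest.Agent.Lib.Cyl.FanTop

/-!
# The explicit fan cover of the tetrahedron: total area
-/

open MeasureTheory Measure Set Finset
open scoped ENNReal

set_option linter.unusedSectionVars false
set_option linter.unusedVariables false

noncomputable section

namespace Crest.Agent.Lib.Cyl.Fan

def pFn (γ : ℝ) : ℝ := 7 / 32 * γ ^ 4 - 1 / 16 * γ ^ 2 - 1 / 32
def FFn (θ : ℝ) : ℝ := 7 / 160 * θ ^ 5 - 1 / 48 * θ ^ 3 - θ / 32

lemma one_div_sqrt_le (W : ℝ) (hW : 0 ≤ W) :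
    1 / Real.sqrt (1 + W) ≤ 1 - W / 2 + W ^ 2 := by
  have hpos : 0 < Real.sqrt (1 + W) := Real.sqrt_pos.mpr (by linarith)
  rw [div_le_iff₀ hpos]
  have hJ : 0 ≤ 1 - W / 2 + W ^ 2 := by nlinarith [sq_nonneg (W - 1 / 4)]
  -- compare squares
  have h1 : (1 : ℝ) ^ 2 ≤ ((1 - W / 2 + W ^ 2) * Real.sqrt (1 + W)) ^ 2 := by
    rw [mul_pow, Real.sq_sqrt (by linarith)]
    have : (1 - W / 2 + W ^ 2) ^ 2 * (1 + W) = 1 + 5 / 4 * W ^ 2 + 5 / 4 * W ^ 3 + W ^ 5 := by ring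
    rw [this]
    have h2 : 0 ≤ W ^ 3 := by positivity
    have h3 : 0 ≤ W ^ 5 := by positivity
    have h4 : 0 ≤ W ^ 2 := by positivity
    linarith
  exact (abs_le_of_sq_le_sq' h1 (by positivity)).2

lemma term_bound (γ : ℝ) (hγ : |γ| ≤ 1) :
    (XFn γ + dd) ^ 2 / Real.sqrt (1 + WFn γ) ≤
      1 + aa ^ 2 * pFn γ + (302 / 100 * aa ^ 3 + 7 / 2 * aa * kk + 3 / 10 ^ 12) := by
  have hG : γ ^ 2 ≤ 1 := by simpa using aux_sq_le hγ
  have hG0 : 0 ≤ γ ^ 2 := sq_nonneg γ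
  have hG4 : γ ^ 4 ≤ 1 := by simpa using aux_four_le hγ
  have hG40 : 0 ≤ γ ^ 4 := by positivity
  set w := wFn γ with hw
  set W := WFn γ with hWdef
  have hW0 : 0 ≤ W := WFn_nonneg γ
  have hw0 : 0 ≤ w := wFn_nonneg γ
  have hwmax : w ≤ 1 / 1000000 := by
    rw [hw]; unfold wFn aa; norm_num; linarith
  have hWmax : W ≤ 3 / 4 / 1000000 := by
    rw [hWdef]; unfold WFn aa
    have : (1 + γ ^ 2) ^ 2 / 16 + γ ^ 2 / 2 ≤ 3 / 4 := by nlinarith
    norm_num at this ⊢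
    linarith
  set c := 7 / 4 * aa * kk with hc
  have hc0 : 0 ≤ c := by rw [hc]; norm_num [aa, kk]
  have hc1 : c ≤ 1 / 10 ^ 9 := by rw [hc]; norm_num [aa, kk]
  have hXd : XFn γ + dd = 1 + w / 2 + c := by
    unfold XFn dd; rw [hc, ← hw]; ring
  rw [hXd]
  set B := (1 + w / 2 + c) ^ 2 with hB
  have hB1 : 1 ≤ B := by rw [hB]; nlinarith
  have hB2 : B ≤ 2 := by
    rw [hB]
    have : 1 + w / 2 + c ≤ 1 + 1 / 10000 := by norm_num at hc1 hwmax ⊢; linarith
    have h0 : 0 ≤ 1 + w / 2 + c := by positivity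
    have := pow_le_pow_left₀ h0 this 2
    norm_num at this ⊢
    linarith
  have hBval : B = 1 + w + 2 * c + (w / 2 + c) ^ 2 := by rw [hB]; ring
  have hR : (w / 2 + c) ^ 2 ≤ 1 / 10 ^ 12 := by
    have h0 : 0 ≤ w / 2 + c := by positivity
    have h1 : w / 2 + c ≤ 1 / 10 ^ 6 := by norm_num at hc1 hwmax ⊢; linarith
    have := pow_le_pow_left₀ h0 h1 2
    norm_num at this ⊢
    linarith
  have hW2 : W ^ 2 ≤ 1 / 10 ^ 12 := by
    have h1 : W ≤ 3 / 4 / 1000000 := hWmax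
    have := pow_le_pow_left₀ hW0 h1 2
    norm_num at this ⊢
    linarith
  have hJ := one_div_sqrt_le W hW0
  have hB0 : 0 ≤ B := by linarith
  have h1 : B / Real.sqrt (1 + W) ≤ B * (1 - W / 2 + W ^ 2) := by
    rw [div_eq_mul_one_div]
    exact mul_le_mul_of_nonneg_left hJ hB0
  refine h1.trans ?_
  have h2 : B * (1 - W / 2 + W ^ 2) ≤ B - W / 2 + 2 * W ^ 2 := by
    have e : B * (1 - W / 2 + W ^ 2) = B - B * (W / 2) + B * W ^ 2 := by ring
    rw [e]
    have h3 : 1 * (W / 2) ≤ B * (W / 2) := mul_le_mul_of_nonneg_right hB1 (by positivity)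
    have h4 : B * W ^ 2 ≤ 2 * W ^ 2 := mul_le_mul_of_nonneg_right hB2 (by positivity)
    linarith
  refine h2.trans ?_
  have hid : w - W / 2 = aa ^ 2 * pFn γ + 302 / 100 * aa ^ 3 := by
    rw [hw, hWdef]; unfold wFn WFn pFn; ring
  rw [hBval]
  have e2 : (2 * c) = 7 / 2 * aa * kk := by rw [hc]; ring
  have h10 : (3 : ℝ) / 10 ^ 12 = 1 / 10 ^ 12 + 2 * (1 / 10 ^ 12) := by norm_num
  rw [h10]
  linarith

lemma tele_step (γ k : ℝ) (hk : 0 ≤ k) :
    k * pFn γ ≤ FFn (γ + k / 2) - FFn (γ - k / 2) + k ^ 3 / 192 := by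
  have : FFn (γ + k / 2) - FFn (γ - k / 2) + k ^ 3 / 192 - k * pFn γ =
      7 / 64 * γ ^ 2 * k ^ 3 + 7 / 2560 * k ^ 5 := by
    unfold FFn pFn; ring
  have h2 : 0 ≤ 7 / 64 * γ ^ 2 * k ^ 3 + 7 / 2560 * k ^ 5 := by positivity
  linarith

lemma sum_pFn : ∑ i ∈ Finset.range NN, kk * pFn (gam i) ≤ -(1 / 60) + kk ^ 2 / 96 := by
  let f : ℕ → ℝ := fun i => FFn (-1 + (i : ℝ) * kk)
  have h1 : ∀ i ∈ Finset.range NN, kk * pFn (gam i) ≤ (f (i + 1) - f i) + kk ^ 3 / 192 := by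
    intro i _
    have := tele_step (gam i) kk kk_pos.le
    have e1 : gam i + kk / 2 = -1 + ((i + 1 : ℕ) : ℝ) * kk := by
      unfold gam; push_cast; ring
    have e2 : gam i - kk / 2 = -1 + (i : ℝ) * kk := by
      unfold gam; ring
    rw [e1, e2] at this
    exact this
  refine (Finset.sum_le_sum h1).trans ?_
  rw [Finset.sum_add_distrib, Finset.sum_range_sub, Finset.sum_const, Finset.card_range]
  have hf : f NN - f 0 = -(1 / 60) := by
    simp only [f]
    norm_num [NN, kk, FFn]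
  rw [hf]
  norm_num [NN, kk]

/-- Total area of a fan family (normalized). -/
lemma sum_terms :
    ∑ i ∈ Finset.range NN, kk / 4 * ((XFn (gam i) + dd) ^ 2 / Real.sqrt (1 + WFn (gam i))) ≤
      1 / 2 - 17 / 10 ^ 10 := by
  have hgam : ∀ i ∈ Finset.range NN, |gam i| ≤ 1 := by
    intro i hi
    exact gam_abs_le ⟨i, Finset.mem_range.mp hi⟩
  have h1 : ∀ i ∈ Finset.range NN, kk / 4 * ((XFn (gam i) + dd) ^ 2 / Real.sqrt (1 + WFn (gam i))) ≤
      kk / 4 * (1 + (302 / 100 * aa ^ 3 + 7 / 2 * aa * kk + 3 / 10 ^ 12)) + aa ^ 2 / 4 * (kk * pFn (gam i)) := by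
    intro i hi
    have h2 := term_bound (gam i) (hgam i hi)
    have h3 := mul_le_mul_of_nonneg_left h2 (by have := kk_pos; positivity : 0 ≤ kk / 4)
    calc _ ≤ _ := h3
      _ = _ := by ring
  refine (Finset.sum_le_sum h1).trans ?_
  rw [Finset.sum_add_distrib, Finset.sum_const, Finset.card_range, ← Finset.mul_sum]
  have h4 := mul_le_mul_of_nonneg_left sum_pFn (by positivity : 0 ≤ aa ^ 2 / 4)
  refine (add_le_add_right h4 _).trans ?_
  norm_num [NN, kk, aa]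

lemma sum_top_area :
    ∑ i : Fin NN, (topTri (gam i)).area ≤ T * (1 / 2 - 17 / 10 ^ 10) := by
  have h1 : ∀ i : Fin NN, (topTri (gam i)).area =
      T * (kk / 4 * ((XFn (gam i) + dd) ^ 2 / Real.sqrt (1 + WFn (gam i)))) := by
    intro i
    rw [topTri_area _ (XFn_add_dd_pos _).le]
    ring
  simp_rw [h1]
  rw [← Finset.mul_sum]
  apply mul_le_mul_of_nonneg_left _ T_pos.le
  rw [Fin.sum_univ_eq_sum_range (fun i : ℕ => kk / 4 * ((XFn (gam i) + dd) ^ 2 / Real.sqrt (1 + WFn (gam i)))) NN]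
  exact sum_terms

/-! ### Bottom family by symmetry -/

/-- Linear part of the symmetry. -/
def Qg : E3 →ₗᵢ[ℝ] E3 where
  toFun x := !₂[-x 1, x 0, -x 2]
  map_add' x y := by ext i; fin_cases i <;> simp <;> ring
  map_smul' c x := by ext i; fin_cases i <;> simp
  norm_map' x := by
    have h : ‖(!₂[-x 1, x 0, -x 2] : E3)‖ ^ 2 = ‖x‖ ^ 2 := by
      rw [norm_sq_E3, norm_sq_E3]; simp; ring
    exact (sq_eq_sq₀ (norm_nonneg _) (norm_nonneg _)).mp h

@[simp] lemma Qg_apply (x : E3) : Qg x = !₂[-x 1, x 0, -x 2] := rfl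

def b0g : E3 := !₂[0, 0, s]

def botTri (γ : ℝ) : Tri := (topTri γ).simil Qg 1 b0g

lemma topTri_valid (γ : ℝ) : (topTri γ).Valid := mkTri_valid _ _ _ _ (nVec_ne γ)

lemma botTri_valid (γ : ℝ) : (botTri γ).Valid := Tri.simil_valid _ (topTri_valid γ) _ _ _

lemma botTri_area (γ : ℝ) : (botTri γ).area = (topTri γ).area := by
  unfold botTri
  rw [Tri.simil_area _ _ _ (by norm_num)]
  ring

/-- Coordinates on the tetrahedron. -/
lemma KK_coords (P : E3) (hP : P ∈ KK) :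
    ∃ x y v : ℝ, P = !₂[x, y, s - T * v] ∧ 0 ≤ v ∧ |x| ≤ v / 2 ∧ |y| ≤ 1 - v / 2 := by
  unfold KK at hP
  rw [convexHull_insert (by simp), mem_convexJoin] at hP
  obtain ⟨a, ha, b, hb, hP⟩ := hP
  obtain rfl : a = P1 := by simpa using ha
  rw [mem_convexHull_triple] at hb
  obtain ⟨l2, l3, l4, h2, h3, h4, hs, rfl⟩ := hb
  obtain ⟨e, f, he, hf, hef, rfl⟩ := hP
  have hT := T_pos
  refine ⟨e - f * l2, f * (l3 - l4), 2 * (e + f * l2), ?_, by positivity, ?_, ?_⟩
  · ext j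
    fin_cases j
    · simp; ring
    · simp; ring
    · simp
      have hs2 : s = 2 * T := by unfold T; ring
      have hs3 : Real.sqrt 2 = s := rfl
      have hl : l4 = 1 - l2 - l3 := by linarith
      have hef' : e = 1 - f := by linarith
      rw [hs3, hs2, hl, hef']
      ring
  · have h1 : 0 ≤ f * l2 := by positivity
    rw [abs_le]; constructor <;> linarith
  · have h1 : 0 ≤ f * l3 := by positivity
    have h5 : 0 ≤ f * l4 := by positivity
    have h6 : f * (l2 + l3 + l4) = f := by rw [hs, mul_one]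
    have h7 : f * l2 + f * l3 + f * l4 = f := by
      have : f * l2 + f * l3 + f * l4 = f * (l2 + l3 + l4) := by ring
      rw [this, h6]
    have h8 : f * (l3 - l4) = f * l3 - f * l4 := by ring
    rw [h8, abs_le]; constructor <;> linarith

/-- The full family. -/
def fanFamily : (Fin NN ⊕ Fin NN) → Tri
  | Sum.inl i => topTri (gam i)
  | Sum.inr i => botTri (gam i)

lemma fanFamily_valid (i : Fin NN ⊕ Fin NN) : (fanFamily i).Valid := by
  cases i with
  | inl i => exact topTri_valid _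
  | inr i => exact botTri_valid _

lemma fanFamily_area : ∑ i, (fanFamily i).area ≤ s * (1 / 2 - 17 / 10 ^ 10) := by
  rw [Fintype.sum_sum_type]
  simp only [fanFamily, botTri_area]
  have := sum_top_area
  have hs2 : s = 2 * T := by unfold T; ring
  rw [hs2]
  linarith

lemma fanFamily_cover : KK ⊆ ⋃ i, (fanFamily i).cyl := by
  intro P hP
  obtain ⟨x, y, v, rfl, hv, hx, hy⟩ := KK_coords P hP
  rw [mem_iUnion]
  by_cases htop : v ≤ 1 - eFn aa x y
  · obtain ⟨i, hi⟩ := top_cover x y v hv hx hy htop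
    exact ⟨Sum.inl i, hi⟩
  · push Not at htop
    have hv2 : v ≤ 2 := by have := abs_nonneg y; linarith
    have hx' : |y| ≤ (2 - v) / 2 := by linarith
    have hy' : |-x| ≤ 1 - (2 - v) / 2 := by rw [abs_neg]; linarith
    have htop' : 2 - v ≤ 1 - eFn aa y (-x) := by rw [eFn_symm]; linarith
    obtain ⟨i, hi⟩ := top_cover y (-x) (2 - v) (by linarith) hx' hy' htop'
    refine ⟨Sum.inr i, ?_⟩
    have := Tri.simil_cyl _ (topTri_valid (gam i)) Qg 1 b0g _ hi
    have e : (!₂[x, y, s - T * v] : E3) = b0g + (1 : ℝ) • Qg !₂[y, -x, s - T * (2 - v)] := by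
      ext j
      fin_cases j
      · simp [b0g]
      · simp [b0g]
      · simp [b0g]
        unfold T
        ring
    rw [e]
    exact this

end Crest.Agent.Lib.Cyl.Fan
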