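import Crest.Agent.Lib.Cyl.Tri
import Crest.Agent.Lib.Cyl.FanCore

/-!
# The explicit fan family for the top half of the tetrahedron
-/

open MeasureTheory Measure Set Finset
open scoped ENNReal

set_option linter.unusedSectionVars false
set_option linter.unusedVariables false

noncomputable section

namespace Crest.Agent.Lib.Cyl.Fan

/-- `√2`. -/
def s : ℝ := Real.sqrt 2
/-- `√2 / 2`. -/
def T : ℝ := s / 2

lemma s_sq : s ^ 2 = 2 := sqrt2_sq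
lemma s_pos : 0 < s := sqrt2_pos
lemma T_pos : 0 < T := by unfold T; linarith [s_pos]
lemma T_sq : T ^ 2 = 1 / 2 := by unfold T; rw [div_pow, s_sq]; norm_num

/-- tilt -/
def aa : ℝ := 1 / 1000
/-- number of wedges -/
def NN : ℕ := 4000000
/-- step in θ -/
def kk : ℝ := 1 / 2000000

lemma aa_pos : 0 < aa := by norm_num [aa]
lemma kk_pos : 0 < kk := by norm_num [kk]

def gam (i : ℕ) : ℝ := -1 + ((i : ℝ) + 1 / 2) * kk
def wFn (γ : ℝ) : ℝ := aa ^ 2 / 4 * (γ ^ 2 + γ ^ 4) + 302 / 100 * aa ^ 3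
def XFn (γ : ℝ) : ℝ := 1 + wFn γ / 2 + aa * kk / 2
def dd : ℝ := 5 / 4 * aa * kk
def WFn (γ : ℝ) : ℝ := aa ^ 2 * ((1 + γ ^ 2) ^ 2 / 16 + γ ^ 2 / 2)

def nVec (γ : ℝ) : E3 := !₂[-(aa / 4 * (1 + γ ^ 2)), 1, aa * γ * T]
def emb (x v : ℝ) : E3 := !₂[x, 0, s - T * v]

@[simp] lemma nVec_0 (γ : ℝ) : nVec γ 0 = -(aa / 4 * (1 + γ ^ 2)) := by simp [nVec]
@[simp] lemma nVec_1 (γ : ℝ) : nVec γ 1 = 1 := by simp [nVec]
@[simp] lemma nVec_2 (γ : ℝ) : nVec γ 2 = aa * γ * T := by simp [nVec]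
@[simp] lemma emb_0 (x v : ℝ) : emb x v 0 = x := by simp [emb]
@[simp] lemma emb_1 (x v : ℝ) : emb x v 1 = 0 := by simp [emb]
@[simp] lemma emb_2 (x v : ℝ) : emb x v 2 = s - T * v := by simp [emb]

lemma norm_sq_nVec (γ : ℝ) : ‖nVec γ‖ ^ 2 = 1 + WFn γ := by
  rw [norm_sq_E3]
  simp only [nVec_0, nVec_1, nVec_2, WFn]
  have := T_sq
  calc (-(aa / 4 * (1 + γ ^ 2))) ^ 2 + 1 ^ 2 + (aa * γ * T) ^ 2
      = 1 + aa ^ 2 * ((1 + γ ^ 2) ^ 2 / 16 + γ ^ 2 * T ^ 2) := by ring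
    _ = _ := by rw [this]; ring

lemma WFn_nonneg (γ : ℝ) : 0 ≤ WFn γ := by unfold WFn; positivity

lemma norm_nVec (γ : ℝ) : ‖nVec γ‖ = Real.sqrt (1 + WFn γ) := by
  rw [← norm_sq_nVec, Real.sqrt_sq (norm_nonneg _)]

lemma nVec_ne (γ : ℝ) : nVec γ ≠ 0 := by
  intro h
  have := congrArg (fun p : E3 => p 1) h
  simp at this

/-- The triangle vertices. -/
def vA (γ : ℝ) : E3 := emb (-(1 / 2 * γ * dd)) (-dd)
def vB (γ : ℝ) : E3 := emb (1 / 2 * γ * XFn γ - kk / 4 * (XFn γ + dd)) (XFn γ)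
def vC (γ : ℝ) : E3 := emb (1 / 2 * γ * XFn γ + kk / 4 * (XFn γ + dd)) (XFn γ)

/-- The cylinder of the wedge around `γ`. -/
def topTri (γ : ℝ) : Tri := mkTri (nVec γ) (vA γ) (vB γ) (vC γ)

lemma emb_mem_hull (γ X d k x v : ℝ) (hk : 0 < k) (hXd : 0 < X + d) (h1 : -d ≤ v) (h2 : v ≤ X)
    (h3 : |x - 1 / 2 * γ * v| ≤ k / 4 * (v + d)) :
    emb x v ∈ convexHull ℝ ({emb (-(1 / 2 * γ * d)) (-d), emb (1 / 2 * γ * X - k / 4 * (X + d)) X,
      emb (1 / 2 * γ * X + k / 4 * (X + d)) X} : Set E3) := by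
  rw [mem_convexHull_triple]
  have h3' := abs_le.mp h3
  have hne : X + d ≠ 0 := hXd.ne'
  have hkne : k ≠ 0 := hk.ne'
  set D := (x - 1 / 2 * γ * v) / (k / 4 * (X + d)) with hD
  have hDm : D * (k / 4 * (X + d)) = x - 1 / 2 * γ * v := by
    rw [hD]; field_simp
  have hpos : 0 < k / 4 * (X + d) := by positivity
  have hDabs : |D| ≤ (v + d) / (X + d) := by
    rw [hD, abs_div, abs_of_pos hpos]
    calc |x - 1 / 2 * γ * v| / (k / 4 * (X + d))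
        ≤ (k / 4 * (v + d)) / (k / 4 * (X + d)) := div_le_div_of_nonneg_right h3 hpos.le
      _ = (v + d) / (X + d) := by field_simp
  have hD' := abs_le.mp hDabs
  refine ⟨(X - v) / (X + d), ((v + d) / (X + d) - D) / 2, ((v + d) / (X + d) + D) / 2,
    div_nonneg (by linarith) hXd.le, by linarith [hD'.2], by linarith [hD'.1], ?_, ?_⟩
  · field_simp; ring
  · have hw0 : (X - v) / (X + d) + (v + d) / (X + d) = 1 := by field_simp; ring
    ext j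
    fin_cases j
    · simp
      have e : v = ((X - v) / (X + d)) * (-d) + ((v + d) / (X + d)) * X := by field_simp; ring
      have e2 : x = 1 / 2 * γ * v + D * (k / 4 * (X + d)) := by rw [hDm]; ring
      rw [e2]
      conv_lhs => rw [e]
      ring
    · simp
    · simp
      have e : v = ((X - v) / (X + d)) * (-d) + ((v + d) / (X + d)) * X := by field_simp; ring
      have hw : (X - v) / (X + d) = 1 - (v + d) / (X + d) := by linarith
      conv_lhs => rw [e]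
      rw [hw]
      ring

lemma topTri_mem (γ x y v : ℝ) (hX : 0 < XFn γ + dd) (h1 : -dd ≤ v + aa * y * γ)
    (h2 : v + aa * y * γ ≤ XFn γ)
    (h3 : |x + aa / 4 * y * (1 + γ ^ 2) - 1 / 2 * γ * (v + aa * y * γ)| ≤
      kk / 4 * (v + aa * y * γ + dd)) :
    (!₂[x, y, s - T * v] : E3) ∈ (topTri γ).cyl := by
  have hb := emb_mem_hull γ (XFn γ) dd kk (x + aa / 4 * y * (1 + γ ^ 2)) (v + aa * y * γ)
    kk_pos hX h1 h2 h3
  refine mem_mkTri_cyl _ _ _ _ _ _ (nVec_ne γ) y hb ?_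
  ext j
  fin_cases j
  · simp; ring
  · simp
  · simp; ring

lemma topTri_area (γ : ℝ) (hX : 0 ≤ XFn γ + dd) :
    (topTri γ).area = kk / 4 * T * ((XFn γ + dd) ^ 2 / Real.sqrt (1 + WFn γ)) := by
  unfold topTri
  rw [mkTri_area _ _ _ _ (nVec_ne γ), norm_nVec]
  have hT := T_pos
  have : det3 (nVec γ) (vB γ - vA γ) (vC γ - vA γ) = -(kk / 2 * T * (XFn γ + dd) ^ 2) := by
    simp [det3, vA, vB, vC]
    ring
  rw [this, abs_neg, abs_of_nonneg (by have := kk_pos; positivity)]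
  ring

lemma exists_index (θ : ℝ) (hθ : |θ| ≤ 1) : ∃ i : Fin NN, |θ - gam i| ≤ kk / 2 := by
  have hθ' := abs_le.mp hθ
  have hk := kk_pos
  by_cases h1 : θ = 1
  · refine ⟨⟨NN - 1, by norm_num [NN]⟩, ?_⟩
    subst h1
    have : gam (NN - 1) = 1 - kk / 2 := by
      unfold gam NN kk; norm_num
    rw [this, abs_le]; constructor <;> linarith
  · have hlt : θ < 1 := lt_of_le_of_ne hθ'.2 h1
    have h0 : 0 ≤ (θ + 1) / kk := div_nonneg (by linarith) hk.le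
    set j := ⌊(θ + 1) / kk⌋₊ with hj
    have hj1 : (j : ℝ) ≤ (θ + 1) / kk := Nat.floor_le h0
    have hj2 : (θ + 1) / kk < j + 1 := Nat.lt_floor_add_one _
    rw [le_div_iff₀ hk] at hj1
    rw [div_lt_iff₀ hk] at hj2
    have hjN : j < NN := by
      have : (j : ℝ) * kk < 2 := by linarith
      have h3 : (j : ℝ) < 4000000 := by
        unfold kk at this
        linarith
      have h4 : j < 4000000 := by exact_mod_cast h3
      simpa [NN] using h4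
    refine ⟨⟨j, hjN⟩, ?_⟩
    simp only [gam]
    rw [abs_le]; constructor <;> nlinarith

lemma gam_abs_le (i : Fin NN) : |gam i| ≤ 1 := by
  have hi : ((i : ℕ) : ℝ) + 1 ≤ 4000000 := by
    have := i.2
    have h2 : (i : ℕ) + 1 ≤ 4000000 := by
      unfold NN at this
      omega
    exact_mod_cast h2
  have hi0 : (0 : ℝ) ≤ ((i : ℕ) : ℝ) := Nat.cast_nonneg _
  unfold gam kk
  rw [abs_le]; constructor <;> linarith

lemma theta_poly (θ γ k : ℝ) (hθ : |θ| ≤ 1) (hγ : |γ| ≤ 1) (h : |θ - γ| ≤ k / 2) :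
    θ ^ 2 + θ ^ 4 ≤ γ ^ 2 + γ ^ 4 + 3 * k := by
  have hk : 0 ≤ k := by
    have := abs_nonneg (θ - γ); linarith
  have h1 : |θ ^ 2 - γ ^ 2| ≤ k := by
    have : θ ^ 2 - γ ^ 2 = (θ - γ) * (θ + γ) := by ring
    rw [this, abs_mul]
    have h2 : |θ + γ| ≤ 2 := by
      have := abs_add_le θ γ; linarith
    have := mul_le_mul h h2 (abs_nonneg _) (by positivity)
    linarith
  have hθ2 : θ ^ 2 ≤ 1 := by simpa using aux_sq_le hθ
  have hγ2 : γ ^ 2 ≤ 1 := by simpa using aux_sq_le hγ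
  have h1' := abs_le.mp h1
  have e : θ ^ 4 - γ ^ 4 = (θ ^ 2 - γ ^ 2) * (θ ^ 2 + γ ^ 2) := by ring
  have h3 : θ ^ 4 - γ ^ 4 ≤ k * 2 := by
    rw [e]
    have h4 : (θ ^ 2 - γ ^ 2) * (θ ^ 2 + γ ^ 2) ≤ |θ ^ 2 - γ ^ 2| * |θ ^ 2 + γ ^ 2| := by
      rw [← abs_mul]; exact le_abs_self _
    have h5 : |θ ^ 2 + γ ^ 2| ≤ 2 := by
      rw [abs_of_nonneg (by positivity)]; linarith
    have := mul_le_mul h1 h5 (abs_nonneg _) hk
    linarith
  linarith [h1'.2]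

lemma wFn_nonneg (γ : ℝ) : 0 ≤ wFn γ := by
  unfold wFn; have := aa_pos; positivity

lemma rbound_gam (θ γ r : ℝ) (hθ : |θ| ≤ 1) (hγ : |γ| ≤ 1) (hi : |θ - γ| ≤ kk / 2)
    (hrb : r ^ 2 ≤ 1 + aa ^ 2 / 4 * (θ ^ 2 + θ ^ 4) + 301 / 100 * aa ^ 3) (hr0 : 0 ≤ r) :
    r ≤ 1 + wFn γ / 2 := by
  have h1 := theta_poly θ γ kk hθ hγ hi
  have h2 : r ^ 2 ≤ 1 + wFn γ := by
    unfold wFn
    have h3 : aa ^ 2 / 4 * (θ ^ 2 + θ ^ 4) ≤ aa ^ 2 / 4 * (γ ^ 2 + γ ^ 4 + 3 * kk) :=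
      mul_le_mul_of_nonneg_left h1 (by positivity)
    have h4 : aa ^ 2 / 4 * (3 * kk) ≤ 1 / 100 * aa ^ 3 := by norm_num [aa, kk]
    have h5 : aa ^ 2 / 4 * (γ ^ 2 + γ ^ 4 + 3 * kk) =
      aa ^ 2 / 4 * (γ ^ 2 + γ ^ 4) + aa ^ 2 / 4 * (3 * kk) := by ring
    linarith
  have h6 := wFn_nonneg γ
  by_contra hc
  push Not at hc
  have h7 : (1 + wFn γ / 2) ^ 2 < r ^ 2 := pow_lt_pow_left₀ hc (by positivity) (by norm_num)
  nlinarith [sq_nonneg (wFn γ)]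

lemma XFn_add_dd_pos (γ : ℝ) : 0 < XFn γ + dd := by
  unfold XFn dd
  have := wFn_nonneg γ
  have h1 := aa_pos
  have h2 := kk_pos
  positivity

/-- top region covered -/
theorem top_cover (x y v : ℝ) (hv : 0 ≤ v) (hx : |x| ≤ v / 2) (hy : |y| ≤ 1 - v / 2)
    (htop : v ≤ 1 - eFn aa x y) :
    ∃ i : Fin NN, (!₂[x, y, s - T * v] : E3) ∈ (topTri (gam i)).cyl := by
  obtain ⟨r, θ, hr0, hθ, hr2, hvr, hxr⟩ := radial aa x y v aa_pos hv hx
  have hrb := rbound aa x y v r θ aa_pos (by norm_num [aa]) hv hx hy htop hr0 hθ hr2 hxr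
  -- find the index
  obtain ⟨i, hi⟩ : ∃ i : Fin NN, |θ - gam i| ≤ kk / 2 := exists_index θ hθ
  refine ⟨i, ?_⟩
  have hy1 : |y| ≤ 1 := by have := abs_nonneg x; linarith
  obtain ⟨h1, h2, h3⟩ := wedge_incl aa kk x y v r θ (gam i) aa_pos kk_pos hr0 hy1 hi hvr hxr
  have hg : |gam i| ≤ 1 := gam_abs_le i
  have hrw := rbound_gam θ (gam i) r hθ hg hi hrb hr0
  have hXpos : 0 < XFn (gam i) + dd := XFn_add_dd_pos _
  refine topTri_mem (gam i) x y v hXpos ?_ ?_ ?_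
  · simpa [dd] using h1
  · unfold XFn; linarith
  · simpa [dd] using h3

end Crest.Agent.Lib.Cyl.Fan
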