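import Crest.Agent.Lib.Cyl.FanCover

/-!
# Facts on the projections of the tetrahedron
-/

open MeasureTheory Measure Set Finset
open scoped ENNReal

set_option linter.unusedSectionVars false
set_option linter.unusedVariables false

noncomputable section

namespace Crest.Agent.Lib.Cyl

lemma isCompact_KK : IsCompact KK :=
  Set.Finite.isCompact_convexHull (𝕜 := ℝ) (Set.toFinite _)

lemma proj_continuous (v : E3) : Continuous (proj v) := by
  have : (proj v : E3 → E3) = fun y => y - inner ℝ y v • v := (proj_fun v).symm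
  rw [this]
  fun_prop

lemma finite_proj_of_compact (v : E3) (hv : ‖v‖ = 1) (S : Set E3) (hS : IsCompact S) :
    (μHE[2] (proj v '' S) : ℝ≥0∞) ≠ ∞ := by
  apply ne_of_lt
  apply area_lt_top_of_bounded v hv _ (hS.image (proj_continuous v)).isBounded
  rintro y ⟨x, _, rfl⟩
  exact inner_proj_self v hv x

lemma minproj_toReal (v : E3) (hv : ‖v‖ = 1) :
    Real.sqrt 2 ≤ (μHE[2] (proj v '' KK) : ℝ≥0∞).toReal := by
  have h1 := minproj_lower v hv
  have h2 := finite_proj_of_compact v hv KK isCompact_KK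
  exact (ENNReal.ofReal_le_iff_le_toReal h2).mp h1

/-- The padding triangle of area `c`. -/
def padTri (c : ℝ) : Tri := ⟨!₂[0, 0, 1], 0, !₂[2 * c, 0, 0], !₂[0, 1, 0]⟩

lemma padTri_valid (c : ℝ) : (padTri c).Valid := by
  refine ⟨?_, ?_, ?_, ?_⟩
  · have h : ‖(!₂[0, 0, 1] : E3)‖ ^ 2 = 1 ^ 2 := by rw [norm_sq_E3]; simp
    exact (sq_eq_sq₀ (norm_nonneg _) (by norm_num)).mp h
  · simp [padTri]
  · simp [padTri, inner_E3]
  · simp [padTri, inner_E3]

lemma padTri_area (c : ℝ) (hc : 0 ≤ c) : (padTri c).area = c := by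
  unfold Tri.area gram
  simp only [padTri, sub_zero]
  rw [norm_sq_E3, norm_sq_E3, inner_E3]
  have : (!₂[2 * c, 0, 0] : E3) 0 ^ 2 + (!₂[2 * c, 0, 0] : E3) 1 ^ 2 + (!₂[2 * c, 0, 0] : E3) 2 ^ 2 = (2 * c) ^ 2 := by
    simp
  rw [this]
  simp
  have h2 : (2 * c) ^ 2 = (2 * c) ^ 2 := rfl
  rw [Real.sqrt_sq (by positivity)]
  ring

end Crest.Agent.Lib.Cyl
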