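import Crest.Agent.Lib.Cyl.Chart

/-!
# The minimal projection of the regular tetrahedron
-/

open MeasureTheory Measure Set
open scoped ENNReal

set_option linter.unusedSectionVars false
set_option linter.unusedVariables false

noncomputable section

namespace Crest.Agent.Lib.Cyl

/-- The line through `a1` with direction `d ≠ 0` is null in `E2`. -/
lemma volume_cross_eq_zero (d a : E2) (hd : d ≠ 0) :
    volume {x : E2 | cross2 d (x - a) = 0} = 0 := by
  let S : Submodule ℝ E2 := LinearMap.ker
    (((d 0) • (EuclideanSpace.proj (1 : Fin 2) : E2 →L[ℝ] ℝ)).toLinearMap -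
      ((d 1) • (EuclideanSpace.proj (0 : Fin 2) : E2 →L[ℝ] ℝ)).toLinearMap)
  have hS : S ≠ ⊤ := by
    intro h
    have h0 : (!₂[1, 0] : E2) ∈ S := by rw [h]; trivial
    have h1 : (!₂[0, 1] : E2) ∈ S := by rw [h]; trivial
    simp [S, LinearMap.mem_ker] at h0 h1
    apply hd
    ext i; fin_cases i
    · simpa using h1
    · simpa using h0
  have h0 : volume (S : Set E2) = 0 := Measure.addHaar_submodule volume S hS
  have hsub : {x : E2 | cross2 d (x - a) = 0} ⊆ (fun y : E2 => a + y) '' (S : Set E2) := by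
    intro x hx
    refine ⟨x - a, ?_, by simp⟩
    simp only [SetLike.mem_coe, S, LinearMap.mem_ker]
    simp only [mem_ofPred_eq, cross2] at hx
    simp at hx ⊢
    linarith
  refine measure_mono_null hsub ?_
  rw [Set.image_add_left, measure_preimage_add]
  exact h0

lemma isCompact_triple {W : Type*} [NormedAddCommGroup W] [NormedSpace ℝ W] (p q r : W) :
    IsCompact (convexHull ℝ ({p, q, r} : Set W)) :=
  Set.Finite.isCompact_convexHull (𝕜 := ℝ) (Set.toFinite _)

/-- Cross with `d` is nonneg on the triangle if nonneg on the vertices. -/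
lemma cross_sign_tri (d a p q r x : E2) (s : ℝ)
    (hp : 0 ≤ s * cross2 d (p - a)) (hq : 0 ≤ s * cross2 d (q - a)) (hr : 0 ≤ s * cross2 d (r - a))
    (hx : x ∈ convexHull ℝ ({p, q, r} : Set E2)) : 0 ≤ s * cross2 d (x - a) := by
  rw [mem_convexHull_triple] at hx
  obtain ⟨l1, l2, l3, h1, h2, h3, hs, rfl⟩ := hx
  have hl : l1 = 1 - l2 - l3 := by linarith
  have : s * cross2 d (l1 • p + l2 • q + l3 • r - a)
      = l1 * (s * cross2 d (p - a)) + l2 * (s * cross2 d (q - a)) + l3 * (s * cross2 d (r - a)) := by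
    subst hl
    simp [cross2]
    ring
  rw [this]
  positivity

/-- Lower bound of the area of the hull of four points in the plane by half the cross product
of the diagonals. -/
lemma volume_quad_lower (a1 a2 a3 a4 : E2) :
    ENNReal.ofReal (1 / 2 * |cross2 (a2 - a1) (a4 - a3)|) ≤
      volume (convexHull ℝ ({a1, a2, a3, a4} : Set E2)) := by
  set S3 := cross2 (a2 - a1) (a3 - a1) with hS3
  set S4 := cross2 (a2 - a1) (a4 - a1) with hS4
  have hcr : cross2 (a2 - a1) (a4 - a3) = S4 - S3 := by
    simp [cross2, hS3, hS4]; ring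
  have hT3 : convexHull ℝ ({a1, a2, a3} : Set E2) ⊆ convexHull ℝ ({a1, a2, a3, a4} : Set E2) :=
    convexHull_mono (by intro x; simp; tauto)
  have hT4 : convexHull ℝ ({a1, a2, a4} : Set E2) ⊆ convexHull ℝ ({a1, a2, a3, a4} : Set E2) :=
    convexHull_mono (by intro x; simp; tauto)
  have vol_eq : ∀ p q r : E2, volume (convexHull ℝ ({p, q, r} : Set E2)) =
      ENNReal.ofReal (1 / 2 * |cross2 (q - p) (r - p)|) := by
    intro p q r
    have := area_triangle p q r
    rw [EuclideanSpace.euclideanHausdorffMeasure_eq_volume, sqrt_gram_E2] at this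
    exact this
  have v3 := vol_eq a1 a2 a3
  have v4 := vol_eq a1 a2 a4
  rw [← hS3] at v3
  rw [← hS4] at v4
  rw [hcr]
  by_cases hsign : 0 ≤ S3 * S4
  · -- same side
    have : |S4 - S3| ≤ |S3| ∨ |S4 - S3| ≤ |S4| := by
      rcases le_total 0 S3 with h3 | h3 <;> rcases le_total 0 S4 with h4 | h4
      · rcases le_total S3 S4 with h | h
        · right; rw [abs_of_nonneg (by linarith), abs_of_nonneg h4]; linarith
        · left; rw [abs_of_nonpos (by linarith), abs_of_nonneg h3]; linarith
      · have : S3 = 0 ∨ S4 = 0 := by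
          by_contra hc
          push Not at hc
          have h3' : 0 < S3 := lt_of_le_of_ne h3 (Ne.symm hc.1)
          have h4' : S4 < 0 := lt_of_le_of_ne h4 hc.2
          nlinarith
        rcases this with h | h
        · right; simp [h]
        · left; simp [h]
      · have : S3 = 0 ∨ S4 = 0 := by
          by_contra hc
          push Not at hc
          have h3' : S3 < 0 := lt_of_le_of_ne h3 hc.1
          have h4' : 0 < S4 := lt_of_le_of_ne h4 (Ne.symm hc.2)
          nlinarith
        rcases this with h | h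
        · right; simp [h]
        · left; simp [h]
      · rcases le_total S3 S4 with h | h
        · left; rw [abs_of_nonneg (by linarith), abs_of_nonpos h3]; linarith
        · right; rw [abs_of_nonpos (by linarith), abs_of_nonpos h4]; linarith
    rcases this with h | h
    · calc ENNReal.ofReal (1 / 2 * |S4 - S3|) ≤ ENNReal.ofReal (1 / 2 * |S3|) :=
            ENNReal.ofReal_le_ofReal (by linarith)
        _ = volume (convexHull ℝ ({a1, a2, a3} : Set E2)) := v3.symm
        _ ≤ _ := measure_mono hT3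
    · calc ENNReal.ofReal (1 / 2 * |S4 - S3|) ≤ ENNReal.ofReal (1 / 2 * |S4|) :=
            ENNReal.ofReal_le_ofReal (by linarith)
        _ = volume (convexHull ℝ ({a1, a2, a4} : Set E2)) := v4.symm
        _ ≤ _ := measure_mono hT4
  · -- opposite sides
    push Not at hsign
    have hd : a2 - a1 ≠ 0 := by
      intro h
      simp [hS3, hS4, h, cross2] at hsign
    have hnull := volume_cross_eq_zero (a2 - a1) a1 hd
    have hinter : volume (convexHull ℝ ({a1, a2, a3} : Set E2) ∩ convexHull ℝ ({a1, a2, a4} : Set E2)) = 0 := by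
      refine measure_mono_null ?_ hnull
      rintro x ⟨hx3, hx4⟩
      have c1 : cross2 (a2 - a1) (a1 - a1) = 0 := by simp [cross2]
      have c2 : cross2 (a2 - a1) (a2 - a1) = 0 := by simp [cross2]; ring
      have h3 := cross_sign_tri (a2 - a1) a1 a1 a2 a3 x S3 (by rw [c1]; simp) (by rw [c2]; simp)
        (by rw [← hS3]; exact mul_self_nonneg _) hx3
      have h4 := cross_sign_tri (a2 - a1) a1 a1 a2 a4 x S4 (by rw [c1]; simp) (by rw [c2]; simp)
        (by rw [← hS4]; exact mul_self_nonneg _) hx4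
      simp only [mem_ofPred_eq]
      set y := cross2 (a2 - a1) (x - a1)
      have hne3 : S3 ≠ 0 := by rintro h; simp [h] at hsign
      have hne4 : S4 ≠ 0 := by rintro h; simp [h] at hsign
      by_contra hy
      rcases lt_or_gt_of_ne hy with hy | hy
      · have : S3 ≤ 0 := by
          by_contra hc
          push Not at hc
          nlinarith
        have : S4 ≤ 0 := by
          by_contra hc
          push Not at hc
          nlinarith
        nlinarith
      · have : 0 ≤ S3 := by
          by_contra hc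
          push Not at hc
          nlinarith
        have : 0 ≤ S4 := by
          by_contra hc
          push Not at hc
          nlinarith
        nlinarith
    have hmeas : MeasurableSet (convexHull ℝ ({a1, a2, a4} : Set E2)) :=
      (isCompact_triple _ _ _).isClosed.measurableSet
    have hun := measure_union_add_inter (μ := (volume : Measure E2))
      (convexHull ℝ ({a1, a2, a3} : Set E2)) hmeas
    rw [hinter, add_zero, v3, v4] at hun
    have habs : 1 / 2 * |S4 - S3| = 1 / 2 * |S3| + 1 / 2 * |S4| := by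
      rcases le_total 0 S3 with h3 | h3
      · have h4 : S4 ≤ 0 := by
          by_contra hc
          push Not at hc
          have : 0 ≤ S3 * S4 := by positivity
          linarith
        rw [abs_of_nonpos (by linarith), abs_of_nonneg h3, abs_of_nonpos h4]
        ring
      · have h4 : 0 ≤ S4 := by
          by_contra hc
          push Not at hc
          have : 0 ≤ S3 * S4 := by nlinarith
          linarith
        rw [abs_of_nonneg (by linarith), abs_of_nonpos h3, abs_of_nonneg h4]
        ring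
    rw [habs, ENNReal.ofReal_add (by positivity) (by positivity), ← hun]
    exact measure_mono (union_subset hT3 hT4)

/-- Tetrahedron vertices. -/
def P1 : E3 := !₂[1, 0, 0]
def P2 : E3 := !₂[-1, 0, 0]
def P3 : E3 := !₂[0, 1, Real.sqrt 2]
def P4 : E3 := !₂[0, -1, Real.sqrt 2]

/-- The tetrahedron. -/
def KK : Set E3 := convexHull ℝ {P1, P2, P3, P4}

lemma KK_eq : (convexHull ℝ {!₂[1, 0, 0], !₂[-1, 0, 0], !₂[0, 1, Real.sqrt 2], !₂[0, -1, Real.sqrt 2]} : Set E3) = KK := rfl

/-- A general convex hull of four points projected to a plane: lower bound by diagonals. -/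
lemma area_proj_quad_lower (v : E3) (hv : ‖v‖ = 1) (p1 p2 p3 p4 : E3) :
    ENNReal.ofReal (1 / 2 * |det3 v (p2 - p1) (p4 - p3)|) ≤
      μHE[2] (proj v '' convexHull ℝ ({p1, p2, p3, p4} : Set E3)) := by
  obtain ⟨f, hf1, hf2⟩ := exists_chart v hv
  obtain ⟨a1, ha1⟩ := hf2 (proj v p1) (inner_proj_self v hv _)
  obtain ⟨a2, ha2⟩ := hf2 (proj v p2) (inner_proj_self v hv _)
  obtain ⟨a3, ha3⟩ := hf2 (proj v p3) (inner_proj_self v hv _)
  obtain ⟨a4, ha4⟩ := hf2 (proj v p4) (inner_proj_self v hv _)
  have himg : proj v '' convexHull ℝ ({p1, p2, p3, p4} : Set E3) =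
      f '' convexHull ℝ ({a1, a2, a3, a4} : Set E2) := by
    have h1 := (proj v).image_convexHull ({p1, p2, p3, p4} : Set E3)
    have h2 := f.toLinearMap.image_convexHull ({a1, a2, a3, a4} : Set E2)
    simp only [LinearIsometry.coe_toLinearMap] at h2
    rw [h1, h2]
    congr 1
    simp [Set.image_insert_eq, ha1, ha2, ha3, ha4]
  rw [himg, f.isometry.euclideanHausdorffMeasure_image,
    EuclideanSpace.euclideanHausdorffMeasure_eq_volume]
  refine le_trans ?_ (volume_quad_lower a1 a2 a3 a4)
  apply ENNReal.ofReal_le_ofReal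
  have : |cross2 (a2 - a1) (a4 - a3)| = |det3 v (p2 - p1) (p4 - p3)| := by
    rw [← sqrt_gram_E2, ← sqrt_gram_proj v hv]
    congr 1
    have e1 : proj v (p2 - p1) = f (a2 - a1) := by simp [ha1, ha2]
    have e2 : proj v (p4 - p3) = f (a4 - a3) := by simp [ha3, ha4]
    rw [e1, e2]
    unfold gram
    rw [f.norm_map, f.norm_map, f.inner_map_map]
  rw [this]

lemma area_proj_tri_lower (v : E3) (hv : ‖v‖ = 1) (p1 p2 p3 : E3) (S : Set E3)
    (hS : convexHull ℝ ({p1, p2, p3} : Set E3) ⊆ S) :
    ENNReal.ofReal (1 / 2 * |det3 v (p2 - p1) (p3 - p1)|) ≤ μHE[2] (proj v '' S) := by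
  have h1 := (proj v).image_convexHull ({p1, p2, p3} : Set E3)
  have h2 : convexHull ℝ ({proj v p1, proj v p2, proj v p3} : Set E3) ⊆ proj v '' S := by
    have : (proj v '' ({p1, p2, p3} : Set E3)) = {proj v p1, proj v p2, proj v p3} := by
      simp [Set.image_insert_eq]
    rw [← this, ← h1]
    exact image_mono hS
  refine le_trans ?_ (measure_mono h2)
  rw [area_triangle, ← map_sub, ← map_sub, sqrt_gram_proj v hv]

lemma sqrt2_sq : Real.sqrt 2 ^ 2 = 2 := Real.sq_sqrt (by norm_num)
lemma sqrt2_pos : 0 < Real.sqrt 2 := Real.sqrt_pos.mpr (by norm_num)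

@[simp] lemma P1_0 : P1 0 = 1 := by simp [P1]
@[simp] lemma P1_1 : P1 1 = 0 := by simp [P1]
@[simp] lemma P1_2 : P1 2 = 0 := by simp [P1]
@[simp] lemma P2_0 : P2 0 = -1 := by simp [P2]
@[simp] lemma P2_1 : P2 1 = 0 := by simp [P2]
@[simp] lemma P2_2 : P2 2 = 0 := by simp [P2]
@[simp] lemma P3_0 : P3 0 = 0 := by simp [P3]
@[simp] lemma P3_1 : P3 1 = 1 := by simp [P3]
@[simp] lemma P3_2 : P3 2 = Real.sqrt 2 := by simp [P3]
@[simp] lemma P4_0 : P4 0 = 0 := by simp [P4]
@[simp] lemma P4_1 : P4 1 = -1 := by simp [P4]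
@[simp] lemma P4_2 : P4 2 = Real.sqrt 2 := by simp [P4]

/-- Real-number core of the lower bound. -/
lemma minproj_real (a b c s : ℝ) (hs : s ^ 2 = 2) (hs0 : 0 < s) (h : a ^ 2 + b ^ 2 + c ^ 2 = 1) :
    s ≤ 2 * |c| ∨ s ≤ s * |a + b| ∨ s ≤ s * |a - b| ∨ s ≤ |s * b - c| ∨ s ≤ |s * b + c| ∨
      s ≤ |s * a + c| ∨ s ≤ |s * a - c| := by
  -- orthonormal change of coordinates
  set w1 := (a + b) / s with hw1
  set w2 := (a - b) / s with hw2
  have ha : s * a = w1 + w2 := by
    rw [hw1, hw2]; field_simp; linear_combination (a) * hs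
  have hb : s * b = w1 - w2 := by
    rw [hw1, hw2]; field_simp; linear_combination (b) * hs
  have hsum : c ^ 2 + w1 ^ 2 + w2 ^ 2 = 1 := by
    have : w1 ^ 2 + w2 ^ 2 = a ^ 2 + b ^ 2 := by
      have h1 : (s * a) ^ 2 + (s * b) ^ 2 = 2 * (a ^ 2 + b ^ 2) := by
        rw [mul_pow, mul_pow, hs]; ring
      rw [ha, hb] at h1
      linarith
    linarith
  have hab1 : s * |a + b| = 2 * |w1| := by
    have : a + b = s * w1 := by rw [hw1]; field_simp
    rw [this, abs_mul, abs_of_pos hs0, ← mul_assoc, ← sq, hs]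
  have hab2 : s * |a - b| = 2 * |w2| := by
    have : a - b = s * w2 := by rw [hw2]; field_simp
    rw [this, abs_mul, abs_of_pos hs0, ← mul_assoc, ← sq, hs]
  rw [hab1, hab2, ha, hb]
  by_contra hc
  push Not at hc
  obtain ⟨h1, h2, h3, h4, h5, h6, h7⟩ := hc
  -- all |w| < s/2, and ‖w‖₁ < s
  have hsum1 : |c| + |w1| + |w2| < s := by
    rcases le_total 0 c with hc0 | hc0 <;> rcases le_total 0 w1 with h10 | h10 <;>
      rcases le_total 0 w2 with h20 | h20 <;>
      simp only [abs_of_nonneg, abs_of_nonpos, hc0, h10, h20] <;>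
      simp only [abs_lt] at h4 h5 h6 h7 <;>
      linarith [h4.1, h4.2, h5.1, h5.2, h6.1, h6.2, h7.1, h7.2]
  have e1 : c ^ 2 = |c| ^ 2 := (sq_abs c).symm
  have e2 : w1 ^ 2 = |w1| ^ 2 := (sq_abs w1).symm
  have e3 : w2 ^ 2 = |w2| ^ 2 := (sq_abs w2).symm
  have n1 := abs_nonneg c
  have n2 := abs_nonneg w1
  have n3 := abs_nonneg w2
  -- |x|² ≤ (s/2)|x|
  have q1 : |c| ^ 2 ≤ s / 2 * |c| := by nlinarith
  have q2 : |w1| ^ 2 ≤ s / 2 * |w1| := by nlinarith
  have q3 : |w2| ^ 2 ≤ s / 2 * |w2| := by nlinarith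
  nlinarith

/-- `√2` lower bound of the area of all projections. -/
theorem minproj_lower (v : E3) (hv : ‖v‖ = 1) :
    ENNReal.ofReal (Real.sqrt 2) ≤ μHE[2] (proj v '' KK) := by
  have h1 : v 0 ^ 2 + v 1 ^ 2 + v 2 ^ 2 = 1 := by
    rw [← norm_sq_E3, hv]; norm_num
  have hs := sqrt2_sq
  have hs0 := sqrt2_pos
  set s := Real.sqrt 2 with hsdef
  -- face and pair bounds
  have pair1 : ENNReal.ofReal (2 * |v 2|) ≤ μHE[2] (proj v '' KK) := by
    have := area_proj_quad_lower v hv P1 P2 P3 P4
    unfold KK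
    convert this using 2
    have : det3 v (P2 - P1) (P4 - P3) = 4 * v 2 := by
      simp [det3]; ring
    rw [this, abs_mul]; norm_num; ring
  have pair2 : ENNReal.ofReal (s * |v 0 + v 1|) ≤ μHE[2] (proj v '' KK) := by
    have := area_proj_quad_lower v hv P1 P3 P2 P4
    have hset : ({P1, P3, P2, P4} : Set E3) = {P1, P2, P3, P4} := by
      ext x; simp; tauto
    rw [hset] at this
    unfold KK
    convert this using 2
    have : det3 v (P3 - P1) (P4 - P2) = 2 * s * (v 0 + v 1) := by
      simp [det3, ← hsdef]; ring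
    rw [this, abs_mul, abs_mul, abs_of_pos hs0]; norm_num; ring
  have pair3 : ENNReal.ofReal (s * |v 0 - v 1|) ≤ μHE[2] (proj v '' KK) := by
    have := area_proj_quad_lower v hv P1 P4 P2 P3
    have hset : ({P1, P4, P2, P3} : Set E3) = {P1, P2, P3, P4} := by
      ext x; simp; tauto
    rw [hset] at this
    unfold KK
    convert this using 2
    have : det3 v (P4 - P1) (P3 - P2) = -(2 * s * (v 0 - v 1)) := by
      simp [det3, ← hsdef]; ring
    rw [this, abs_neg, abs_mul, abs_mul, abs_of_pos hs0]; norm_num; ring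
  have face1 : ENNReal.ofReal |s * v 1 - v 2| ≤ μHE[2] (proj v '' KK) := by
    have := area_proj_tri_lower v hv P1 P2 P3 KK
      (convexHull_mono (by intro x; simp; tauto))
    convert this using 2
    have : det3 v (P2 - P1) (P3 - P1) = 2 * (s * v 1 - v 2) := by
      simp [det3, ← hsdef]; ring
    rw [this, abs_mul]; norm_num; ring
  have face2 : ENNReal.ofReal |s * v 1 + v 2| ≤ μHE[2] (proj v '' KK) := by
    have := area_proj_tri_lower v hv P1 P2 P4 KK
      (convexHull_mono (by intro x; simp; tauto))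
    convert this using 2
    have : det3 v (P2 - P1) (P4 - P1) = 2 * (s * v 1 + v 2) := by
      simp [det3, ← hsdef]; ring
    rw [this, abs_mul]; norm_num; ring
  have face3 : ENNReal.ofReal |s * v 0 + v 2| ≤ μHE[2] (proj v '' KK) := by
    have := area_proj_tri_lower v hv P3 P4 P1 KK
      (convexHull_mono (by intro x; simp; tauto))
    convert this using 2
    have : det3 v (P4 - P3) (P1 - P3) = 2 * (s * v 0 + v 2) := by
      simp [det3, ← hsdef]; ring
    rw [this, abs_mul]; norm_num; ring
  have face4 : ENNReal.ofReal |s * v 0 - v 2| ≤ μHE[2] (proj v '' KK) := by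
    have := area_proj_tri_lower v hv P3 P4 P2 KK
      (convexHull_mono (by intro x; simp; tauto))
    convert this using 2
    have : det3 v (P4 - P3) (P2 - P3) = 2 * (s * v 0 - v 2) := by
      simp [det3, ← hsdef]; ring
    rw [this, abs_mul]; norm_num; ring
  rcases minproj_real (v 0) (v 1) (v 2) s hs hs0 h1 with h | h | h | h | h | h | h
  · exact (ENNReal.ofReal_le_ofReal h).trans pair1
  · exact (ENNReal.ofReal_le_ofReal h).trans pair2
  · exact (ENNReal.ofReal_le_ofReal h).trans pair3
  · exact (ENNReal.ofReal_le_ofReal h).trans face1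
  · exact (ENNReal.ofReal_le_ofReal h).trans face2
  · exact (ENNReal.ofReal_le_ofReal h).trans face3
  · exact (ENNReal.ofReal_le_ofReal h).trans face4

/-- The projection along `e₀` has area exactly `√2`. -/
theorem minproj_attained :
    ∃ v : E3, ‖v‖ = 1 ∧ (μHE[2] (proj v '' KK) : ℝ≥0∞) = ENNReal.ofReal (Real.sqrt 2) := by
  let v : E3 := !₂[1, 0, 0]
  have hv : ‖v‖ = 1 := by
    have : ‖v‖ ^ 2 = 1 := by rw [norm_sq_E3]; simp [v]
    have h0 := norm_nonneg v
    nlinarith
  refine ⟨v, hv, ?_⟩
  have hp1 : proj v P1 = 0 := by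
    rw [proj_apply, inner_E3]
    ext i; fin_cases i <;> simp [v]
  have hp2 : proj v P2 = 0 := by
    rw [proj_apply, inner_E3]
    ext i; fin_cases i <;> simp [v]
  have hp3 : proj v P3 = P3 := by
    rw [proj_apply, inner_E3]
    ext i; fin_cases i <;> simp [v]
  have hp4 : proj v P4 = P4 := by
    rw [proj_apply, inner_E3]
    ext i; fin_cases i <;> simp [v]
  have himg : proj v '' KK = convexHull ℝ {0, P3, P4} := by
    unfold KK
    rw [(proj v).image_convexHull]
    congr 1
    simp [Set.image_insert_eq, hp1, hp2, hp3, hp4]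
  rw [himg, area_triangle]
  congr 1
  have hg : gram (P3 - 0) (P4 - 0) = 8 := by
    unfold gram
    rw [norm_sq_E3, norm_sq_E3, inner_E3]
    simp
    have := sqrt2_sq
    nlinarith
  rw [hg]
  have : Real.sqrt 8 = 2 * Real.sqrt 2 := by
    rw [show (8:ℝ) = 2 ^ 2 * 2 by norm_num, Real.sqrt_mul (by norm_num), Real.sqrt_sq (by norm_num)]
  rw [this]
  ring

end Crest.Agent.Lib.Cyl
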