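import Crest.Agent.Lib.Cyl.Sweep1

/-!
# Ruled sets: covering by sheared lattice tiles, frames, the density `J`
-/

open MeasureTheory Measure Set Finset Filter Topology
open scoped ENNReal Pointwise

set_option linter.unusedSectionVars false
set_option linter.unusedVariables false

noncomputable section

namespace Crest.Agent.Lib.Cyl

/-- The sheared unit squares with corners `(m + n d, n + m c)` cover the plane when `0 ≤ c d < 1`. -/
lemma tile_cover_real (c d x y : ℝ) (h0 : 0 ≤ c * d) (h1 : c * d < 1) :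
    ∃ m n : ℤ, x - m - n * d ∈ Icc (0 : ℝ) 1 ∧ y - n - m * c ∈ Icc (0 : ℝ) 1 := by
  set τ := 1 - c * d with hτ
  have hτ0 : 0 < τ := by rw [hτ]; linarith
  let mF : ℤ → ℤ := fun n => ⌊x - n * d⌋
  let H : ℤ → ℝ := fun n => (mF n : ℝ) * c + n
  have hf1 : ∀ n : ℤ, ((mF n : ℤ) : ℝ) ≤ x - n * d := fun n => Int.floor_le _
  have hf2 : ∀ n : ℤ, x - n * d < (mF n : ℝ) + 1 := fun n => Int.lt_floor_add_one _
  -- steps at most one
  have hstep : ∀ n : ℤ, H (n + 1) ≤ H n + 1 := by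
    intro n
    simp only [H]
    push_cast
    have key : ((mF (n + 1) : ℝ) - mF n) * c ≤ 0 := by
      rcases mul_nonneg_iff.mp h0 with ⟨hc, hd⟩ | ⟨hc, hd⟩
      · have : mF (n + 1) ≤ mF n := by
          apply Int.floor_le_floor
          push_cast
          nlinarith
        have h2 : (mF (n + 1) : ℝ) ≤ mF n := by exact_mod_cast this
        exact mul_nonpos_of_nonpos_of_nonneg (by linarith) hc
      · have : mF n ≤ mF (n + 1) := by
          apply Int.floor_le_floor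
          push_cast
          nlinarith
        have h2 : (mF n : ℝ) ≤ mF (n + 1) := by exact_mod_cast this
        exact mul_nonpos_of_nonneg_of_nonpos (by linarith) hc
    linarith
  -- growth
  have hbd : ∀ n : ℤ, |H n - (x * c + n * τ)| ≤ |c| := by
    intro n
    have e : H n - (x * c + n * τ) = ((mF n : ℝ) - (x - n * d)) * c := by
      simp only [H, hτ]; ring
    rw [e, abs_mul]
    have h3 : |(mF n : ℝ) - (x - n * d)| ≤ 1 := by
      rw [abs_le]; constructor <;> linarith [hf1 n, hf2 n]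
    calc _ ≤ 1 * |c| := mul_le_mul_of_nonneg_right h3 (abs_nonneg _)
      _ = _ := one_mul _
  have hbd1 : ∀ n : ℤ, H n ≤ x * c + n * τ + |c| := fun n => by
    have := (abs_le.mp (hbd n)).2; linarith
  have hbd2 : ∀ n : ℤ, x * c + n * τ - |c| ≤ H n := fun n => by
    have := (abs_le.mp (hbd n)).1; linarith
  -- the greatest index with `H n ≤ y`
  have hinh : ∃ n : ℤ, H n ≤ y := by
    refine ⟨⌊(y - x * c - |c|) / τ⌋, (hbd1 _).trans ?_⟩
    have := Int.floor_le ((y - x * c - |c|) / τ)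
    have h4 : (⌊(y - x * c - |c|) / τ⌋ : ℝ) * τ ≤ y - x * c - |c| := by
      rwa [le_div_iff₀ hτ0] at this
    linarith
  have hub : ∃ b : ℤ, ∀ n : ℤ, H n ≤ y → n ≤ b := by
    refine ⟨⌈(y - x * c + |c|) / τ⌉, fun n hn => ?_⟩
    have h5 := (hbd2 n).trans hn
    have h6 : (n : ℝ) ≤ (y - x * c + |c|) / τ := by
      rw [le_div_iff₀ hτ0]; linarith
    have h7 := h6.trans (Int.le_ceil _)
    exact_mod_cast h7
  obtain ⟨n, hn1, hn2⟩ := Int.exists_greatest_of_bdd hub hinh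
  have hn3 : y < H (n + 1) := by
    by_contra hc
    push Not at hc
    have := hn2 _ hc
    omega
  have hn4 := hstep n
  refine ⟨mF n, n, ⟨by linarith [hf1 n], by linarith [hf2 n]⟩, ⟨?_, ?_⟩⟩
  · have : H n = (mF n : ℝ) * c + n := rfl
    linarith
  · have : H n = (mF n : ℝ) * c + n := rfl
    linarith

/-! ### Frames -/

/-- An orthonormal frame of `E2`. -/
structure Frame where
  f1 : E2
  f2 : E2
  n1 : inner ℝ f1 f1 = (1 : ℝ)
  n2 : inner ℝ f2 f2 = (1 : ℝ)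
  o12 : inner ℝ f1 f2 = (0 : ℝ)
  expand : ∀ x : E2, x = (inner ℝ x f1 : ℝ) • f1 + (inner ℝ x f2 : ℝ) • f2

lemma Frame.norm_f1 (F : Frame) : ‖F.f1‖ = 1 := by
  have h := F.n1
  rw [real_inner_self_eq_norm_sq] at h
  exact (sq_eq_sq₀ (norm_nonneg _) (by norm_num)).mp (by rw [h]; norm_num)

lemma Frame.norm_f2 (F : Frame) : ‖F.f2‖ = 1 := by
  have h := F.n2
  rw [real_inner_self_eq_norm_sq] at h
  exact (sq_eq_sq₀ (norm_nonneg _) (by norm_num)).mp (by rw [h]; norm_num)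

lemma Frame.o21 (F : Frame) : inner ℝ F.f2 F.f1 = (0 : ℝ) := by
  rw [real_inner_comm]; exact F.o12

lemma Frame.norm_sq (F : Frame) (x : E2) :
    ‖x‖ ^ 2 = (inner ℝ x F.f1 : ℝ) ^ 2 + (inner ℝ x F.f2 : ℝ) ^ 2 := by
  rw [← real_inner_self_eq_norm_sq]
  conv_lhs => rw [F.expand x]
  simp only [inner_add_left, inner_add_right, inner_smul_left, inner_smul_right, F.n1, F.n2, F.o12,
    F.o21, conj_trivial]
  ring

lemma Frame.inner_comb1 (F : Frame) (a b : ℝ) : (inner ℝ (a • F.f1 + b • F.f2) F.f1 : ℝ) = a := by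
  simp only [inner_add_left, inner_smul_left, F.n1, F.o21, conj_trivial]
  ring

lemma Frame.inner_comb2 (F : Frame) (a b : ℝ) : (inner ℝ (a • F.f1 + b • F.f2) F.f2 : ℝ) = b := by
  simp only [inner_add_left, inner_smul_left, F.n2, F.o12, conj_trivial]
  ring

lemma Frame.norm_comb_sq (F : Frame) (a b : ℝ) : ‖a • F.f1 + b • F.f2‖ ^ 2 = a ^ 2 + b ^ 2 := by
  rw [F.norm_sq, F.inner_comb1, F.inner_comb2]

/-- Rotated frames. -/
def rotFrame (φ : ℝ) : Frame where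
  f1 := !₂[Real.cos φ, Real.sin φ]
  f2 := !₂[-Real.sin φ, Real.cos φ]
  n1 := by
    rw [inner_E2]; simp; nlinarith [Real.sin_sq_add_cos_sq φ]
  n2 := by
    rw [inner_E2]; simp; nlinarith [Real.sin_sq_add_cos_sq φ]
  o12 := by
    rw [inner_E2]; simp; ring
  expand := by
    intro x
    have h := Real.sin_sq_add_cos_sq φ
    rw [inner_E2, inner_E2]
    ext j
    fin_cases j
    · simp
      linear_combination (-(x 0)) * h
    · simp
      linear_combination (-(x 1)) * h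

/-- Entries of a linear map of `E2`. -/
lemma clm_apply_coords (A : E2 →L[ℝ] E2) (x : E2) :
    A x = x 0 • A !₂[1, 0] + x 1 • A !₂[0, 1] := by
  have : x = x 0 • (!₂[1, 0] : E2) + x 1 • (!₂[0, 1] : E2) := by
    ext j; fin_cases j <;> simp
  conv_lhs => rw [this]
  rw [map_add, map_smul, map_smul]

lemma trace_det_coords (A : E2 →L[ℝ] E2) :
    LinearMap.trace ℝ _ A.toLinearMap = (A !₂[1, 0]) 0 + (A !₂[0, 1]) 1 ∧
    LinearMap.det A.toLinearMap = (A !₂[1, 0]) 0 * (A !₂[0, 1]) 1 - (A !₂[0, 1]) 0 * (A !₂[1, 0]) 1 := by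
  let b := (EuclideanSpace.basisFun (Fin 2) ℝ).toBasis
  have hb0 : b 0 = !₂[1, 0] := by
    ext j; fin_cases j <;> simp [b]
  have hb1 : b 1 = !₂[0, 1] := by
    ext j; fin_cases j <;> simp [b]
  have hm : ∀ i j, LinearMap.toMatrix b b A.toLinearMap i j = (A (b j)) i := by
    intro i j
    rw [LinearMap.toMatrix_apply]
    simp [b]
  constructor
  · rw [LinearMap.trace_eq_matrix_trace ℝ b, Matrix.trace_fin_two, hm, hm, hb0, hb1]
  · rw [← LinearMap.det_toMatrix b, Matrix.det_fin_two, hm, hm, hm, hm, hb0, hb1]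

/-- The frame adapted to a traceless map. -/
lemma exists_frame (A : E2 →L[ℝ] E2) (htr : LinearMap.trace ℝ _ A.toLinearMap = 0) :
    ∃ (F : Frame) (β γ : ℝ), A F.f1 = γ • F.f2 ∧ A F.f2 = β • F.f1 ∧
      β * γ = - LinearMap.det A.toLinearMap := by
  obtain ⟨ht, hd⟩ := trace_det_coords A
  set a11 := (A !₂[1, 0]) 0 with ha11
  set a22 := (A !₂[0, 1]) 1 with ha22
  set a12 := (A !₂[0, 1]) 0 with ha12
  set a21 := (A !₂[1, 0]) 1 with ha21
  rw [htr] at ht
  have ha : a22 = - a11 := by linarith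
  let g : ℝ → ℝ := fun φ => a11 * Real.cos φ ^ 2 + (a12 + a21) * (Real.sin φ * Real.cos φ) +
    a22 * Real.sin φ ^ 2
  have hgc : Continuous g := by fun_prop
  have h0 : (0 : ℝ) ∈ uIcc (g 0) (g (Real.pi / 2)) := by
    have g0 : g 0 = a11 := by simp [g]
    have g1 : g (Real.pi / 2) = -a11 := by simp [g, ha]
    rw [g0, g1, Set.mem_uIcc]
    rcases le_total 0 a11 with h | h
    · right; exact ⟨by linarith, h⟩
    · left; exact ⟨h, by linarith⟩
  obtain ⟨φ, _, hφ⟩ := intermediate_value_uIcc hgc.continuousOn h0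
  set c := Real.cos φ with hc
  set s := Real.sin φ with hs
  have hcs : s ^ 2 + c ^ 2 = 1 := Real.sin_sq_add_cos_sq φ
  have hφ' : a11 * c ^ 2 + (a12 + a21) * (s * c) + a22 * s ^ 2 = 0 := hφ
  have Ac : ∀ x : E2, A x = !₂[a11 * x 0 + a12 * x 1, a21 * x 0 + a22 * x 1] := by
    intro x
    rw [clm_apply_coords A x]
    ext j
    fin_cases j
    · simp [ha11, ha12]; ring
    · simp [ha21, ha22]; ring
  refine ⟨rotFrame φ, c * (-(a11) * s + a12 * c) + s * (-(a21) * s + a22 * c),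
    -s * (a11 * c + a12 * s) + c * (a21 * c + a22 * s), ?_, ?_, ?_⟩
  · rw [Ac]
    ext j
    fin_cases j
    · simp [rotFrame, ← hc, ← hs]
      linear_combination (c) * hφ' - (a11 * c + a12 * s) * (hcs)
    · simp [rotFrame, ← hc, ← hs]
      linear_combination (s) * hφ' + (-(a21 * c + a22 * s)) * (hcs)
  · rw [Ac]
    ext j
    fin_cases j
    · simp [rotFrame, ← hc, ← hs]
      rw [ha] at hφ' ⊢
      linear_combination (s) * hφ' + (-(a11 * (-s) + a12 * c)) * (hcs)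
    · simp [rotFrame, ← hc, ← hs]
      rw [ha] at hφ' ⊢
      linear_combination (-c) * hφ' + (-(a21 * (-s) + (-a11) * c)) * (hcs)
  · rw [hd]
    rw [ha] at hφ' ⊢
    have hid : (c * (-(a11) * s + a12 * c) + s * (-(a21) * s + (-a11) * c)) *
        (-s * (a11 * c + a12 * s) + c * (a21 * c + (-a11) * s)) =
        (s ^ 2 + c ^ 2) ^ 2 * (a11 * a11 + a12 * a21) -
          (a11 * c ^ 2 + (a12 + a21) * (s * c) + (-a11) * s ^ 2) ^ 2 := by ring
    rw [hid, hφ', hcs]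
    ring

/-! ### The density -/

/-- The density. -/
def JJ (h : ℝ) (g : E2) : ℝ := 1 / Real.sqrt (1 + g 0 ^ 2 + h ^ 2 * g 1 ^ 2)

lemma JJ_nonneg (h : ℝ) (g : E2) : 0 ≤ JJ h g := by unfold JJ; positivity

lemma sqrt_ge_one (h : ℝ) (g : E2) : 1 ≤ Real.sqrt (1 + g 0 ^ 2 + h ^ 2 * g 1 ^ 2) := by
  rw [Real.one_le_sqrt]; nlinarith [sq_nonneg (g 0), sq_nonneg (h * g 1), mul_pow h (g 1) 2]

lemma JJ_le_one (h : ℝ) (g : E2) : JJ h g ≤ 1 := by
  unfold JJ
  rw [div_le_one (by linarith [sqrt_ge_one h g])]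
  exact sqrt_ge_one h g

/-- Lipschitz bound for `J`. -/
lemma JJ_lip (h : ℝ) (hh : 0 < h) (g g' : E2) : |JJ h g - JJ h g'| ≤ (1 + h) * ‖g - g'‖ := by
  set Φ := Real.sqrt (1 + g 0 ^ 2 + h ^ 2 * g 1 ^ 2) with hΦ
  set Φ' := Real.sqrt (1 + g' 0 ^ 2 + h ^ 2 * g' 1 ^ 2) with hΦ'
  have h1 : 1 ≤ Φ := sqrt_ge_one h g
  have h2 : 1 ≤ Φ' := sqrt_ge_one h g'
  let u : E3 := !₂[1, g 0, h * g 1]
  let u' : E3 := !₂[1, g' 0, h * g' 1]
  have hu : ‖u‖ = Φ := by
    rw [hΦ, ← Real.sqrt_sq (norm_nonneg u), norm_sq_E3]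
    congr 1
    simp [u, mul_pow]
  have hu' : ‖u'‖ = Φ' := by
    rw [hΦ', ← Real.sqrt_sq (norm_nonneg u'), norm_sq_E3]
    congr 1
    simp [u', mul_pow]
  have hdiff : ‖u - u'‖ ≤ (1 + h) * ‖g - g'‖ := by
    apply abs_le_of_sq_le_sq' _ (by positivity) |>.2
    rw [norm_sq_E3, mul_pow, norm_sq_E2]
    simp [u, u']
    have e1 : (h * g 1 - h * g' 1) ^ 2 = h ^ 2 * (g 1 - g' 1) ^ 2 := by ring
    rw [e1]
    have hh2 : h ^ 2 ≤ (1 + h) ^ 2 := by nlinarith
    have hh3 : 1 ≤ (1 + h) ^ 2 := by nlinarith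
    nlinarith [sq_nonneg (g 0 - g' 0), sq_nonneg (g 1 - g' 1)]
  have hΦdiff : |Φ - Φ'| ≤ (1 + h) * ‖g - g'‖ := by
    rw [← hu, ← hu']
    exact (abs_norm_sub_norm_le u u').trans hdiff
  unfold JJ
  rw [← hΦ, ← hΦ']
  have e : 1 / Φ - 1 / Φ' = (Φ' - Φ) / (Φ * Φ') := by
    field_simp
  rw [e, abs_div, abs_of_pos (by positivity : 0 < Φ * Φ'), abs_sub_comm]
  have h3 : 1 ≤ Φ * Φ' := by nlinarith
  calc |Φ - Φ'| / (Φ * Φ') ≤ |Φ - Φ'| / 1 := div_le_div_of_nonneg_left (abs_nonneg _) one_pos h3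
    _ = |Φ - Φ'| := div_one _
    _ ≤ _ := hΦdiff

end Crest.Agent.Lib.Cyl
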