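import Crest.Agent.Lib.Cyl.Ruled1

/-!
# Ruled sets: a point of the ruled set in a sheared tile
-/

open MeasureTheory Measure Set Finset Filter Topology
open scoped ENNReal Pointwise

set_option linter.unusedSectionVars false
set_option linter.unusedVariables false

noncomputable section

namespace Crest.Agent.Lib.Cyl

/-- Lattice point in the frame. -/
def lat (F : Frame) (η : ℝ) (m n : ℤ) : E2 := (η * m) • F.f1 + (η * n) • F.f2

lemma tile_solve (F : Frame) (A : E2 →L[ℝ] E2) (β γ : ℝ) (h1 : A F.f1 = γ • F.f2)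
    (h2 : A F.f2 = β • F.f1) (s η : ℝ) (hη : 0 < η) (Z : E2) (h0 : 0 ≤ (s * γ) * (s * β))
    (hlt : (s * γ) * (s * β) < 1) :
    ∃ (m n : ℤ), ∃ ξ1 ∈ Icc (0 : ℝ) 1, ∃ ξ2 ∈ Icc (0 : ℝ) 1,
      Z = lat F η m n + ξ1 • (η • F.f1) + ξ2 • (η • F.f2) + s • A (lat F η m n) := by
  obtain ⟨m, n, hm, hn⟩ := tile_cover_real (s * γ) (s * β) (inner ℝ Z F.f1 / η) (inner ℝ Z F.f2 / η) h0 hlt
  refine ⟨m, n, _, hm, _, hn, ?_⟩
  have hA : A (lat F η m n) = (η * n * β) • F.f1 + (η * m * γ) • F.f2 := by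
    unfold lat
    rw [map_add, map_smul, map_smul, h1, h2, smul_smul, smul_smul]
    abel
  rw [hA]
  conv_lhs => rw [F.expand Z]
  unfold lat
  have e1 : (inner ℝ Z F.f1 : ℝ) = η * (inner ℝ Z F.f1 / η) := by field_simp
  have e2 : (inner ℝ Z F.f2 : ℝ) = η * (inner ℝ Z F.f2 / η) := by field_simp
  set x := (inner ℝ Z F.f1 : ℝ) / η with hx
  set y := (inner ℝ Z F.f2 : ℝ) / η with hy
  rw [e1, e2]
  module

lemma Frame.beta_le (F : Frame) (A : E2 →L[ℝ] E2) (β : ℝ) (h2 : A F.f2 = β • F.f1) : |β| ≤ ‖A‖ := by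
  have h := A.le_opNorm F.f2
  rw [h2, norm_smul, F.norm_f1, F.norm_f2, mul_one, mul_one, Real.norm_eq_abs] at h
  exact h

lemma Frame.gamma_le (F : Frame) (A : E2 →L[ℝ] E2) (γ : ℝ) (h1 : A F.f1 = γ • F.f2) : |γ| ≤ ‖A‖ := by
  have h := A.le_opNorm F.f1
  rw [h1, norm_smul, F.norm_f1, F.norm_f2, mul_one, mul_one, Real.norm_eq_abs] at h
  exact h

lemma Frame.abs_inner_le (F : Frame) (x : E2) :
    |(inner ℝ x F.f1 : ℝ)| ≤ ‖x‖ ∧ |(inner ℝ x F.f2 : ℝ)| ≤ ‖x‖ := by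
  constructor
  · have := abs_real_inner_le_norm x F.f1
    rwa [F.norm_f1, mul_one] at this
  · have := abs_real_inner_le_norm x F.f2
    rwa [F.norm_f2, mul_one] at this

/-- Inversion of `I + s A` in the frame. -/
lemma near_bound (F : Frame) (A : E2 →L[ℝ] E2) (β γ : ℝ) (h1 : A F.f1 = γ • F.f2)
    (h2 : A F.f2 = β • F.f1) (s τ B : ℝ) (hτ : 0 < τ) (hτ2 : τ ≤ 1 - s ^ 2 * (β * γ))
    (hsβ : |s * β| ≤ B) (hsγ : |s * γ| ≤ B) (ζ : E2) :
    ‖ζ‖ ≤ (2 * (1 + B) / τ) * ‖ζ + s • A ζ‖ := by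
  set E := ζ + s • A ζ with hE
  set z1 := (inner ℝ ζ F.f1 : ℝ) with hz1
  set z2 := (inner ℝ ζ F.f2 : ℝ) with hz2
  have hB : 0 ≤ B := (abs_nonneg _).trans hsβ
  have hAζ : A ζ = (z2 * β) • F.f1 + (z1 * γ) • F.f2 := by
    conv_lhs => rw [F.expand ζ]
    rw [map_add, map_smul, map_smul, h1, h2, smul_smul, smul_smul]
    abel
  have hE' : E = (z1 + s * (z2 * β)) • F.f1 + (z2 + s * (z1 * γ)) • F.f2 := by
    rw [hE, hAζ]
    conv_lhs => rw [F.expand ζ]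
    module
  have hE1 : (inner ℝ E F.f1 : ℝ) = z1 + s * (z2 * β) := by
    rw [hE', F.inner_comb1]
  have hE2 : (inner ℝ E F.f2 : ℝ) = z2 + s * (z1 * γ) := by
    rw [hE', F.inner_comb2]
  obtain ⟨hb1, hb2⟩ := F.abs_inner_le E
  rw [hE1] at hb1
  rw [hE2] at hb2
  set e1 := z1 + s * (z2 * β) with he1
  set e2 := z2 + s * (z1 * γ) with he2
  have hEn : 0 ≤ ‖E‖ := norm_nonneg _
  set D := 1 - s ^ 2 * (β * γ) with hD
  have hDpos : 0 < D := lt_of_lt_of_le hτ hτ2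
  have hz1e : D * z1 = e1 - (s * β) * e2 := by
    rw [hD, he1, he2]; ring
  have hz2e : D * z2 = e2 - (s * γ) * e1 := by
    rw [hD, he1, he2]; ring
  have hprod : ∀ (c e : ℝ), |c| ≤ B → |e| ≤ ‖E‖ → |c * e| ≤ B * ‖E‖ := by
    intro c e hc he
    rw [abs_mul]
    exact mul_le_mul hc he (abs_nonneg _) hB
  have hbd1 : τ * |z1| ≤ (1 + B) * ‖E‖ := by
    have : D * |z1| = |e1 - (s * β) * e2| := by
      rw [← hz1e, abs_mul, abs_of_pos hDpos]
    have h3 : |e1 - (s * β) * e2| ≤ |e1| + |(s * β) * e2| := abs_sub _ _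
    have h4 := hprod _ _ hsβ hb2
    have h5 : τ * |z1| ≤ D * |z1| := mul_le_mul_of_nonneg_right hτ2 (abs_nonneg _)
    linarith
  have hbd2 : τ * |z2| ≤ (1 + B) * ‖E‖ := by
    have : D * |z2| = |e2 - (s * γ) * e1| := by
      rw [← hz2e, abs_mul, abs_of_pos hDpos]
    have h3 : |e2 - (s * γ) * e1| ≤ |e2| + |(s * γ) * e1| := abs_sub _ _
    have h4 := hprod _ _ hsγ hb1
    have h5 : τ * |z2| ≤ D * |z2| := mul_le_mul_of_nonneg_right hτ2 (abs_nonneg _)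
    linarith
  set K := (1 + B) * ‖E‖ / τ with hK
  have hK0 : 0 ≤ K := by positivity
  have hz1K : |z1| ≤ K := by
    rw [hK, le_div_iff₀ hτ]; linarith
  have hz2K : |z2| ≤ K := by
    rw [hK, le_div_iff₀ hτ]; linarith
  have hn : ‖ζ‖ ^ 2 ≤ (2 * K) ^ 2 := by
    rw [F.norm_sq ζ, ← hz1, ← hz2, ← sq_abs z1, ← sq_abs z2]
    have h3 := pow_le_pow_left₀ (abs_nonneg z1) hz1K 2
    have h4 := pow_le_pow_left₀ (abs_nonneg z2) hz2K 2
    nlinarith [sq_nonneg K]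
  have hfin : ‖ζ‖ ≤ 2 * K := (abs_le_of_sq_le_sq' hn (by positivity)).2
  refine hfin.trans (le_of_eq ?_)
  rw [hK]
  ring

/-- A point of the ruled set lies in a tile whose lattice corner is close to the foot point. -/
lemma point_in_tile (F : Frame) (A : E2 →L[ℝ] E2) (β γ : ℝ) (h1 : A F.f1 = γ • F.f2)
    (h2 : A F.f2 = β • F.f1) (hβγ : 0 ≤ β * γ) (V : E2 → E2) (p q : E2) (s L C κ ω₀ η : ℝ)
    (hs : |s| ≤ L) (hL : 0 ≤ L) (hκ : κ < 1) (hdet : L ^ 2 * (β * γ) ≤ κ) (hC : ‖A‖ ≤ C) (hη : 0 < η)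
    (hr : ‖V p - V q - A (p - q)‖ ≤ ω₀ * ‖p - q‖) (hω₀ : 0 ≤ ω₀) :
    ∃ (m n : ℤ), ∃ ξ1 ∈ Icc (0 : ℝ) 1, ∃ ξ2 ∈ Icc (0 : ℝ) 1,
      p + s • V p = (q + lat F η m n) + ξ1 • (η • F.f1) + ξ2 • (η • F.f2) +
        s • (V q + A (lat F η m n)) ∧
      ‖lat F η m n - (p - q)‖ ≤ (2 * (1 + L * C) / (1 - κ)) * (L * (ω₀ * ‖p - q‖) + 2 * η) := by
  have hs2 : s ^ 2 ≤ L ^ 2 := by
    rw [← sq_abs s]; exact pow_le_pow_left₀ (abs_nonneg s) hs 2
  have hsκ : s ^ 2 * (β * γ) ≤ κ := (mul_le_mul_of_nonneg_right hs2 hβγ).trans hdet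
  have h0 : 0 ≤ (s * γ) * (s * β) := by
    have : (s * γ) * (s * β) = s ^ 2 * (β * γ) := by ring
    rw [this]; positivity
  have hlt : (s * γ) * (s * β) < 1 := by
    have : (s * γ) * (s * β) = s ^ 2 * (β * γ) := by ring
    rw [this]; linarith
  obtain ⟨m, n, ξ1, hξ1, ξ2, hξ2, hZ⟩ := tile_solve F A β γ h1 h2 s η hη (p + s • V p - q - s • V q) h0 hlt
  refine ⟨m, n, ξ1, hξ1, ξ2, hξ2, ?_, ?_⟩
  · rw [smul_add]
    have : p + s • V p = (p + s • V p - q - s • V q) + q + s • V q := by abel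
    rw [this, hZ]
    abel
  · set y := lat F η m n with hy
    set Δ := p - q with hΔ
    set ζ := y - Δ with hζ
    set w := ξ1 • (η • F.f1) + ξ2 • (η • F.f2) with hw
    have hτ : 0 < 1 - κ := by linarith
    have hC0 : 0 ≤ C := (norm_nonneg _).trans hC
    have hβ : |β| ≤ C := (F.beta_le A β h2).trans hC
    have hγ : |γ| ≤ C := (F.gamma_le A γ h1).trans hC
    have hLC : 0 ≤ L * C := by positivity
    have hsβ : |s * β| ≤ L * C := by
      rw [abs_mul]; exact mul_le_mul hs hβ (abs_nonneg _) hL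
    have hsγ : |s * γ| ≤ L * C := by
      rw [abs_mul]; exact mul_le_mul hs hγ (abs_nonneg _) hL
    have hnb := near_bound F A β γ h1 h2 s (1 - κ) (L * C) hτ (by linarith) hsβ hsγ ζ
    refine hnb.trans ?_
    apply mul_le_mul_of_nonneg_left _ (by positivity)
    -- the right side
    have hid : ζ + s • A ζ = s • (V p - V q - A Δ) - w := by
      have hZ' : p + s • V p - q - s • V q = y + w + s • A y := by
        rw [hZ, hw, add_assoc y]
      have e1 : ζ + s • A ζ = y + s • A y - Δ - s • A Δ := by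
        rw [hζ, map_sub, smul_sub]; abel
      have e2 : y + s • A y = (p + s • V p - q - s • V q) - w := by
        rw [hZ']; abel
      rw [e1, e2, smul_sub, smul_sub, hΔ]
      abel
    rw [hid]
    have hw2 : ‖w‖ ≤ 2 * η := by
      have e : w = (ξ1 * η) • F.f1 + (ξ2 * η) • F.f2 := by
        rw [hw, smul_smul, smul_smul]
      have hn : ‖w‖ ^ 2 ≤ (2 * η) ^ 2 := by
        rw [e, F.norm_comb_sq]
        have h3 : (ξ1 * η) ^ 2 ≤ (1 * η) ^ 2 :=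
          pow_le_pow_left₀ (mul_nonneg hξ1.1 hη.le) (mul_le_mul_of_nonneg_right hξ1.2 hη.le) 2
        have h4 : (ξ2 * η) ^ 2 ≤ (1 * η) ^ 2 :=
          pow_le_pow_left₀ (mul_nonneg hξ2.1 hη.le) (mul_le_mul_of_nonneg_right hξ2.2 hη.le) 2
        nlinarith
      exact (abs_le_of_sq_le_sq' hn (by positivity)).2
    calc ‖s • (V p - V q - A Δ) - w‖ ≤ ‖s • (V p - V q - A Δ)‖ + ‖w‖ := norm_sub_le _ _
      _ ≤ L * (ω₀ * ‖Δ‖) + 2 * η := by
          apply add_le_add _ hw2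
          rw [norm_smul, Real.norm_eq_abs]
          exact mul_le_mul hs hr (norm_nonneg _) hL

end Crest.Agent.Lib.Cyl
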