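import Crest.Agent.Lib.Cyl.Ruled2

/-!
# Ruled sets: grid cells, counting lattice tiles, upper Riemann sums
-/

open MeasureTheory Measure Set Finset Filter Topology
open scoped ENNReal Pointwise

set_option linter.unusedSectionVars false
set_option linter.unusedVariables false

noncomputable section

namespace Crest.Agent.Lib.Cyl

lemma volume_rect_Icc (a0 b0 a1 b1 : ℝ) :
    volume {x : E2 | x 0 ∈ Icc a0 b0 ∧ x 1 ∈ Icc a1 b1} =
      ENNReal.ofReal (b0 - a0) * ENNReal.ofReal (b1 - a1) := by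
  have hmp := PiLp.volume_preserving_ofLp (Fin 2)
  have : {x : E2 | x 0 ∈ Icc a0 b0 ∧ x 1 ∈ Icc a1 b1} =
      (@WithLp.ofLp 2 (Fin 2 → ℝ)) ⁻¹' (Icc ![a0, a1] ![b0, b1]) := by
    ext x
    simp [Pi.le_def, Fin.forall_fin_two]
    tauto
  rw [this, hmp.measure_preimage measurableSet_Icc.nullMeasurableSet,
    Real.volume_Icc_pi]
  simp [Fin.prod_univ_two]

lemma volume_rect_Ico (a0 b0 a1 b1 : ℝ) :
    volume {x : E2 | x 0 ∈ Ico a0 b0 ∧ x 1 ∈ Ico a1 b1} =
      ENNReal.ofReal (b0 - a0) * ENNReal.ofReal (b1 - a1) := by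
  have hmp := PiLp.volume_preserving_ofLp (Fin 2)
  have : {x : E2 | x 0 ∈ Ico a0 b0 ∧ x 1 ∈ Ico a1 b1} =
      (@WithLp.ofLp 2 (Fin 2 → ℝ)) ⁻¹' (Set.pi univ fun i => Ico (![a0, a1] i) (![b0, b1] i)) := by
    ext x
    simp [Set.mem_pi, Fin.forall_fin_two]
  rw [this, hmp.measure_preimage (MeasurableSet.univ_pi fun i => measurableSet_Ico).nullMeasurableSet,
    Real.volume_pi_Ico]
  simp [Fin.prod_univ_two]

/-- Grid cells. -/
def cell (δ : ℝ) (z : ℤ × ℤ) : Set E2 :=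
  {x | x 0 ∈ Ico (δ * z.1) (δ * (z.1 + 1)) ∧ x 1 ∈ Ico (δ * z.2) (δ * (z.2 + 1))}

lemma measurableSet_cell (δ : ℝ) (z : ℤ × ℤ) : MeasurableSet (cell δ z) := by
  have h0 : MeasurableSet ((fun x : E2 => x 0) ⁻¹' Ico (δ * z.1) (δ * (z.1 + 1))) :=
    cont0.measurable measurableSet_Ico
  have h1 : MeasurableSet ((fun x : E2 => x 1) ⁻¹' Ico (δ * z.2) (δ * (z.2 + 1))) :=
    cont1.measurable measurableSet_Ico
  exact h0.inter h1

lemma volume_cell (δ : ℝ) (hδ : 0 < δ) (z : ℤ × ℤ) : volume (cell δ z) = ENNReal.ofReal (δ ^ 2) := by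
  unfold cell
  rw [volume_rect_Ico, ← ENNReal.ofReal_mul (by nlinarith)]
  congr 1
  ring

lemma mem_cell_idx (δ : ℝ) (hδ : 0 < δ) (x : E2) : x ∈ cell δ (⌊x 0 / δ⌋, ⌊x 1 / δ⌋) := by
  have h1 := Int.floor_le (x 0 / δ)
  have h2 := Int.lt_floor_add_one (x 0 / δ)
  have h3 := Int.floor_le (x 1 / δ)
  have h4 := Int.lt_floor_add_one (x 1 / δ)
  rw [le_div_iff₀ hδ] at h1 h3
  rw [div_lt_iff₀ hδ] at h2 h4
  refine ⟨⟨?_, ?_⟩, ⟨?_, ?_⟩⟩ <;> simp only <;> nlinarith

lemma cell_disjoint (δ : ℝ) (hδ : 0 < δ) (z z' : ℤ × ℤ) (hne : z ≠ z') :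
    Disjoint (cell δ z) (cell δ z') := by
  rw [Set.disjoint_left]
  rintro x ⟨⟨h1, h2⟩, ⟨h3, h4⟩⟩ ⟨⟨h5, h6⟩, ⟨h7, h8⟩⟩
  apply hne
  have e1 : z.1 = z'.1 := by
    have a1 : (z.1 : ℝ) < z'.1 + 1 := by
      have : δ * z.1 < δ * (z'.1 + 1) := by linarith
      exact lt_of_mul_lt_mul_left this hδ.le
    have a2 : (z'.1 : ℝ) < z.1 + 1 := by
      have : δ * z'.1 < δ * (z.1 + 1) := by linarith
      exact lt_of_mul_lt_mul_left this hδ.le
    have a1' : z.1 < z'.1 + 1 := by exact_mod_cast a1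
    have a2' : z'.1 < z.1 + 1 := by exact_mod_cast a2
    omega
  have e2 : z.2 = z'.2 := by
    have a1 : (z.2 : ℝ) < z'.2 + 1 := by
      have : δ * z.2 < δ * (z'.2 + 1) := by linarith
      exact lt_of_mul_lt_mul_left this hδ.le
    have a2 : (z'.2 : ℝ) < z.2 + 1 := by
      have : δ * z'.2 < δ * (z.2 + 1) := by linarith
      exact lt_of_mul_lt_mul_left this hδ.le
    have a1' : z.2 < z'.2 + 1 := by exact_mod_cast a1
    have a2' : z'.2 < z.2 + 1 := by exact_mod_cast a2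
    omega
  exact Prod.ext e1 e2

lemma norm_le_of_coords (x : E2) (c : ℝ) (h0 : |x 0| ≤ c) (h1 : |x 1| ≤ c) : ‖x‖ ≤ 2 * c := by
  have hc : 0 ≤ c := (abs_nonneg _).trans h0
  apply (abs_le_of_sq_le_sq' _ (by positivity)).2
  rw [norm_sq_E2, ← sq_abs (x 0), ← sq_abs (x 1)]
  have h3 := pow_le_pow_left₀ (abs_nonneg _) h0 2
  have h4 := pow_le_pow_left₀ (abs_nonneg _) h1 2
  nlinarith

lemma coord_le_norm (x : E2) : |x 0| ≤ ‖x‖ ∧ |x 1| ≤ ‖x‖ := by
  have h := norm_sq_E2 x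
  constructor
  · apply abs_le_of_sq_le_sq _ (norm_nonneg _)
    rw [h]; nlinarith [sq_nonneg (x 1)]
  · apply abs_le_of_sq_le_sq _ (norm_nonneg _)
    rw [h]; nlinarith [sq_nonneg (x 0)]

lemma cell_diam (δ : ℝ) (hδ : 0 < δ) (z : ℤ × ℤ) (x y : E2) (hx : x ∈ cell δ z) (hy : y ∈ cell δ z) :
    ‖x - y‖ ≤ 2 * δ := by
  obtain ⟨⟨h1, h2⟩, ⟨h3, h4⟩⟩ := hx
  obtain ⟨⟨h5, h6⟩, ⟨h7, h8⟩⟩ := hy
  apply norm_le_of_coords
  · simp only [PiLp.sub_apply]
    rw [abs_le]; constructor <;> nlinarith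
  · simp only [PiLp.sub_apply]
    rw [abs_le]; constructor <;> nlinarith

/-! ### Counting -/

/-- The half-open tiles in the frame. -/
def tileSet (F : Frame) (η : ℝ) (q : E2) (l : ℤ × ℤ) : Set E2 :=
  {x | (inner ℝ (x - q) F.f1 : ℝ) ∈ Ico (η * l.1) (η * (l.1 + 1)) ∧
    (inner ℝ (x - q) F.f2 : ℝ) ∈ Ico (η * l.2) (η * (l.2 + 1))}

lemma measurableSet_tileSet (F : Frame) (η : ℝ) (q : E2) (l : ℤ × ℤ) :
    MeasurableSet (tileSet F η q l) := by
  have c1 : Continuous (fun x : E2 => (inner ℝ (x - q) F.f1 : ℝ)) := by fun_prop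
  have c2 : Continuous (fun x : E2 => (inner ℝ (x - q) F.f2 : ℝ)) := by fun_prop
  exact (c1.measurable measurableSet_Ico).inter (c2.measurable measurableSet_Ico)

lemma tileSet_disjoint (F : Frame) (η : ℝ) (hη : 0 < η) (q : E2) (l l' : ℤ × ℤ) (hne : l ≠ l') :
    Disjoint (tileSet F η q l) (tileSet F η q l') := by
  rw [Set.disjoint_left]
  rintro x ⟨⟨h1, h2⟩, ⟨h3, h4⟩⟩ ⟨⟨h5, h6⟩, ⟨h7, h8⟩⟩
  apply hne
  have e1 : l.1 = l'.1 := by
    have a1 : (l.1 : ℝ) < l'.1 + 1 := by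
      have : η * l.1 < η * (l'.1 + 1) := by linarith
      exact lt_of_mul_lt_mul_left this hη.le
    have a2 : (l'.1 : ℝ) < l.1 + 1 := by
      have : η * l'.1 < η * (l.1 + 1) := by linarith
      exact lt_of_mul_lt_mul_left this hη.le
    have a1' : l.1 < l'.1 + 1 := by exact_mod_cast a1
    have a2' : l'.1 < l.1 + 1 := by exact_mod_cast a2
    omega
  have e2 : l.2 = l'.2 := by
    have a1 : (l.2 : ℝ) < l'.2 + 1 := by
      have : η * l.2 < η * (l'.2 + 1) := by linarith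
      exact lt_of_mul_lt_mul_left this hη.le
    have a2 : (l'.2 : ℝ) < l.2 + 1 := by
      have : η * l'.2 < η * (l.2 + 1) := by linarith
      exact lt_of_mul_lt_mul_left this hη.le
    have a1' : l.2 < l'.2 + 1 := by exact_mod_cast a1
    have a2' : l'.2 < l.2 + 1 := by exact_mod_cast a2
    omega
  exact Prod.ext e1 e2

/-- The half-open unit square. -/
def halfSq : Set E2 := {x | x 0 ∈ Ico (0 : ℝ) 1 ∧ x 1 ∈ Ico (0 : ℝ) 1}

lemma volume_halfSq : volume halfSq = 1 := by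
  unfold halfSq
  rw [volume_rect_Ico]
  simp

lemma volume_tile_ge (F : Frame) (η : ℝ) (hη : 0 < η) (q : E2) (l : ℤ × ℤ) :
    ENNReal.ofReal (η ^ 2) ≤ volume (tileSet F η q l) := by
  have hsub : (fun y : E2 => (q + lat F η l.1 l.2) + y) ''
      (planeMap (η • F.f1) (η • F.f2) '' halfSq) ⊆ tileSet F η q l := by
    rintro _ ⟨_, ⟨u, ⟨hu0, hu1⟩, rfl⟩, rfl⟩
    simp only [planeMap_apply]
    have e : q + lat F η l.1 l.2 + (u 0 • η • F.f1 + u 1 • η • F.f2) - q =
        (η * l.1 + u 0 * η) • F.f1 + (η * l.2 + u 1 * η) • F.f2 := by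
      unfold lat
      module
    have c1 : (inner ℝ (q + lat F η l.1 l.2 + (u 0 • η • F.f1 + u 1 • η • F.f2) - q) F.f1 : ℝ) =
        η * l.1 + u 0 * η := by
      rw [e, F.inner_comb1]
    have c2 : (inner ℝ (q + lat F η l.1 l.2 + (u 0 • η • F.f1 + u 1 • η • F.f2) - q) F.f2 : ℝ) =
        η * l.2 + u 1 * η := by
      rw [e, F.inner_comb2]
    have hu0' := mul_nonneg hu0.1 hη.le
    have hu1' := mul_nonneg hu1.1 hη.le
    have hu0'' : u 0 * η < 1 * η := mul_lt_mul_of_pos_right hu0.2 hη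
    have hu1'' : u 1 * η < 1 * η := mul_lt_mul_of_pos_right hu1.2 hη
    refine ⟨?_, ?_⟩
    · change (inner ℝ (q + lat F η l.1 l.2 + (u 0 • η • F.f1 + u 1 • η • F.f2) - q) F.f1 : ℝ) ∈ _
      rw [c1]
      constructor <;> nlinarith
    · change (inner ℝ (q + lat F η l.1 l.2 + (u 0 • η • F.f1 + u 1 • η • F.f2) - q) F.f2 : ℝ) ∈ _
      rw [c2]
      constructor <;> nlinarith
  refine le_trans (le_of_eq ?_) (measure_mono hsub)
  rw [← EuclideanSpace.euclideanHausdorffMeasure_eq_volume, measure_translate, area_image_planeMap,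
    volume_halfSq, mul_one]
  congr 1
  have hg : gram (η • F.f1) (η • F.f2) = (η ^ 2) ^ 2 := by
    unfold gram
    rw [norm_smul, norm_smul, F.norm_f1, F.norm_f2, inner_smul_left, inner_smul_right, F.o12]
    simp
    ring
  rw [hg, Real.sqrt_sq (by positivity)]

/-- Counting lattice tiles near a cell. -/
lemma count_bound (δ : ℝ) (hδ : 0 < δ) (z : ℤ × ℤ) (q : E2) (F : Frame) (η : ℝ) (hη : 0 < η) (ρ : ℝ)
    (hρ : 0 ≤ ρ) (S : Finset (ℤ × ℤ))
    (hS : ∀ l ∈ S, ∃ p ∈ cell δ z, ‖lat F η l.1 l.2 - (p - q)‖ ≤ ρ) :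
    (S.card : ℝ) * η ^ 2 ≤ (δ + 2 * (ρ + 2 * η)) ^ 2 := by
  set ρ' := ρ + 2 * η with hρ'
  have hρ'0 : 0 ≤ ρ' := by positivity
  set Box : Set E2 := {x | x 0 ∈ Icc (δ * z.1 - ρ') (δ * (z.1 + 1) + ρ') ∧
    x 1 ∈ Icc (δ * z.2 - ρ') (δ * (z.2 + 1) + ρ')} with hBox
  have hsub : ∀ l ∈ S, tileSet F η q l ⊆ Box := by
    intro l hl x hx
    obtain ⟨p, hp, hpl⟩ := hS l hl
    obtain ⟨⟨h1, h2⟩, ⟨h3, h4⟩⟩ := hx
    obtain ⟨⟨h5, h6⟩, ⟨h7, h8⟩⟩ := hp
    have hrem : ‖x - q - lat F η l.1 l.2‖ ≤ 2 * η := by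
      have e : x - q - lat F η l.1 l.2 =
          ((inner ℝ (x - q) F.f1 : ℝ) - η * l.1) • F.f1 + ((inner ℝ (x - q) F.f2 : ℝ) - η * l.2) • F.f2 := by
        conv_lhs => rw [F.expand (x - q)]
        unfold lat
        module
      have hn : ‖x - q - lat F η l.1 l.2‖ ^ 2 ≤ (2 * η) ^ 2 := by
        rw [e, F.norm_comb_sq]
        have a1 : ((inner ℝ (x - q) F.f1 : ℝ) - η * l.1) ^ 2 ≤ η ^ 2 := by
          apply pow_le_pow_left₀ (by linarith)
          have : η * (l.1 + 1) = η * l.1 + η := by ring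
          linarith
        have a2 : ((inner ℝ (x - q) F.f2 : ℝ) - η * l.2) ^ 2 ≤ η ^ 2 := by
          apply pow_le_pow_left₀ (by linarith)
          have : η * (l.2 + 1) = η * l.2 + η := by ring
          linarith
        nlinarith
      exact (abs_le_of_sq_le_sq' hn (by positivity)).2
    have hxp : ‖x - p‖ ≤ ρ' := by
      have e : x - p = (x - q - lat F η l.1 l.2) + (lat F η l.1 l.2 - (p - q)) := by abel
      rw [e, hρ']
      have := norm_add_le (x - q - lat F η l.1 l.2) (lat F η l.1 l.2 - (p - q))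
      linarith
    obtain ⟨c0, c1⟩ := coord_le_norm (x - p)
    simp only [PiLp.sub_apply] at c0 c1
    have c0' := abs_le.mp (c0.trans hxp)
    have c1' := abs_le.mp (c1.trans hxp)
    refine ⟨⟨by linarith [c0'.1], by linarith [c0'.2]⟩, ⟨by linarith [c1'.1], by linarith [c1'.2]⟩⟩
  have hdisj : (S : Set (ℤ × ℤ)).PairwiseDisjoint (tileSet F η q) := by
    intro l _ l' _ hne
    exact tileSet_disjoint F η hη q l l' hne
  have h1 : ∑ l ∈ S, volume (tileSet F η q l) = volume (⋃ l ∈ S, tileSet F η q l) :=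
    (measure_biUnion_finset hdisj fun l _ => measurableSet_tileSet F η q l).symm
  have h2 : volume (⋃ l ∈ S, tileSet F η q l) ≤ volume Box :=
    measure_mono (iUnion₂_subset hsub)
  have h3 : volume Box = ENNReal.ofReal ((δ + 2 * ρ') ^ 2) := by
    rw [hBox, volume_rect_Icc, ← ENNReal.ofReal_mul (by nlinarith)]
    congr 1
    ring
  have h4 : ∑ l ∈ S, ENNReal.ofReal (η ^ 2) ≤ ∑ l ∈ S, volume (tileSet F η q l) :=
    Finset.sum_le_sum fun l _ => volume_tile_ge F η hη q l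
  rw [Finset.sum_const, nsmul_eq_mul] at h4
  have h5 : ENNReal.ofReal ((S.card : ℝ) * η ^ 2) ≤ ENNReal.ofReal ((δ + 2 * ρ') ^ 2) := by
    rw [ENNReal.ofReal_mul (by positivity), ENNReal.ofReal_natCast]
    calc _ ≤ _ := h4
      _ = _ := h1
      _ ≤ _ := h2
      _ = _ := h3
  exact (ENNReal.ofReal_le_ofReal_iff (by positivity)).mp h5

/-- The lattice points near a cell are finitely many. -/
lemma near_finite (δ : ℝ) (hδ : 0 < δ) (z : ℤ × ℤ) (q : E2) (F : Frame) (η : ℝ) (hη : 0 < η) (ρ : ℝ)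
    (hρ : 0 ≤ ρ) : {l : ℤ × ℤ | ∃ p ∈ cell δ z, ‖lat F η l.1 l.2 - (p - q)‖ ≤ ρ}.Finite := by
  by_contra hinf
  have hinf' : {l : ℤ × ℤ | ∃ p ∈ cell δ z, ‖lat F η l.1 l.2 - (p - q)‖ ≤ ρ}.Infinite := hinf
  set B := (δ + 2 * (ρ + 2 * η)) ^ 2 with hB
  obtain ⟨n, hn⟩ := exists_nat_gt (B / η ^ 2)
  obtain ⟨S, hS, hcard⟩ := hinf'.exists_subset_card_eq n
  have := count_bound δ hδ z q F η hη ρ hρ S (fun l hl => hS hl)
  rw [hcard] at this
  rw [div_lt_iff₀ (by positivity)] at hn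
  linarith

/-! ### Upper Riemann sums on the grid -/

lemma riemann_upper (D : Set E2) (hD : IsCompact D) (f : E2 → ℝ) (hf : ContinuousOn f D)
    (hf0 : ∀ x ∈ D, 0 ≤ f x) (hf1 : ∀ x ∈ D, f x ≤ 1) (ε : ℝ) (hε : 0 < ε) :
    ∃ δ₀ : ℝ, 0 < δ₀ ∧ ∀ δ : ℝ, 0 < δ → δ ≤ δ₀ → ∀ (G : Finset (ℤ × ℤ)) (q : ℤ × ℤ → E2),
      (∀ x ∈ D, ∃ z ∈ G, x ∈ cell δ z) → (∀ z ∈ G, q z ∈ D ∧ q z ∈ cell δ z) →
      ∑ z ∈ G, δ ^ 2 * f (q z) ≤ (∫ x in D, f x) + ε := by
  have hDm : MeasurableSet D := hD.isClosed.measurableSet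
  have hDfin : volume D ≠ ∞ := hD.measure_lt_top.ne
  set vD := (volume : Measure E2).real D with hvD
  have hvD0 : 0 ≤ vD := measureReal_nonneg
  -- outer regularity
  obtain ⟨W, hDW, hWo, hW⟩ := Set.exists_isOpen_lt_add (μ := (volume : Measure E2)) D hDfin
    (ε := ENNReal.ofReal (ε / 2)) (by simpa using hε)
  obtain ⟨r, hr, hrW⟩ := hD.exists_thickening_subset_open hWo hDW
  -- uniform continuity
  have hu := hD.uniformContinuousOn_of_continuous hf
  rw [Metric.uniformContinuousOn_iff] at hu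
  set ε' := ε / (2 * (vD + 1)) with hε'
  have hε'pos : 0 < ε' := by positivity
  obtain ⟨δ₁, hδ₁, hd⟩ := hu ε' hε'pos
  refine ⟨min (r / 4) (δ₁ / 4), by positivity, ?_⟩
  intro δ hδ hδ' G q hcov hq
  have hδr : δ ≤ r / 4 := hδ'.trans (min_le_left _ _)
  have hδδ : δ ≤ δ₁ / 4 := hδ'.trans (min_le_right _ _)
  have hfint : IntegrableOn f D := hf.integrableOn_compact hD
  have hcellD : ∀ z, MeasurableSet (D ∩ cell δ z) := fun z => hDm.inter (measurableSet_cell δ z)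
  have hdisjG : (G : Set (ℤ × ℤ)).PairwiseDisjoint (fun z => D ∩ cell δ z) := by
    intro z _ z' _ hne
    exact (cell_disjoint δ hδ z z' hne).mono inter_subset_right inter_subset_right
  have hUn : D = ⋃ z ∈ G, D ∩ cell δ z := by
    ext x
    simp only [mem_iUnion, mem_inter_iff, exists_prop]
    constructor
    · intro hx
      obtain ⟨z, hz, hxz⟩ := hcov x hx
      exact ⟨z, hz, hx, hxz⟩
    · rintro ⟨z, _, hx, _⟩
      exact hx
  have hintsum : ∫ x in D, f x = ∑ z ∈ G, ∫ x in D ∩ cell δ z, f x := by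
    conv_lhs => rw [hUn]
    apply integral_biUnion_finset G (fun z _ => hcellD z) hdisjG
    intro z _
    exact hfint.mono_set inter_subset_left
  have hvolsum : vD = ∑ z ∈ G, (volume : Measure E2).real (D ∩ cell δ z) := by
    rw [hvD]
    conv_lhs => rw [hUn]
    exact measureReal_biUnion_finset hdisjG (fun z _ => hcellD z)
      (fun z _ => ne_top_of_le_ne_top hDfin (measure_mono inter_subset_left))
  -- the rest of the cells
  have hcellW : ∀ z ∈ G, cell δ z ⊆ W := by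
    intro z hz x hx
    apply hrW
    rw [Metric.mem_thickening_iff]
    refine ⟨q z, (hq z hz).1, ?_⟩
    rw [dist_eq_norm]
    have := cell_diam δ hδ z x (q z) hx (hq z hz).2
    linarith
  have hdiffm : ∀ z, MeasurableSet (cell δ z \ D) := fun z => (measurableSet_cell δ z).diff hDm
  have hdisjG2 : (G : Set (ℤ × ℤ)).PairwiseDisjoint (fun z => cell δ z \ D) := by
    intro z _ z' _ hne
    exact (cell_disjoint δ hδ z z' hne).mono diff_subset diff_subset
  have hcellfin : ∀ z, volume (cell δ z) ≠ ∞ := fun z => by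
    rw [volume_cell δ hδ]; exact ENNReal.ofReal_ne_top
  have hrest : ∑ z ∈ G, (volume : Measure E2).real (cell δ z \ D) ≤ ε / 2 := by
    rw [← measureReal_biUnion_finset hdisjG2 (fun z _ => hdiffm z)
      (fun z _ => ne_top_of_le_ne_top (hcellfin z) (measure_mono diff_subset))]
    have hsub : (⋃ z ∈ G, cell δ z \ D) ⊆ W \ D := by
      apply iUnion₂_subset
      intro z hz x hx
      exact ⟨hcellW z hz hx.1, hx.2⟩
    have hWf : volume W ≠ ∞ := ne_top_of_lt hW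
    have h1 : (volume : Measure E2).real (⋃ z ∈ G, cell δ z \ D) ≤ (volume : Measure E2).real (W \ D) :=
      measureReal_mono hsub (ne_top_of_le_ne_top hWf (measure_mono diff_subset))
    refine h1.trans ?_
    rw [measureReal_diff hDW hDm hWf]
    have h2 : (volume W).toReal ≤ (volume D + ENNReal.ofReal (ε / 2)).toReal :=
      ENNReal.toReal_mono (by simp [hDfin]) hW.le
    rw [ENNReal.toReal_add hDfin (by simp), ENNReal.toReal_ofReal (by positivity)] at h2
    simp only [Measure.real]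
    linarith
  -- cell by cell
  have hcell : ∀ z ∈ G, δ ^ 2 * f (q z) ≤ (∫ x in D ∩ cell δ z, f x) +
      ε' * (volume : Measure E2).real (D ∩ cell δ z) + (volume : Measure E2).real (cell δ z \ D) := by
    intro z hz
    obtain ⟨hqD, hqc⟩ := hq z hz
    have hsplit : (volume : Measure E2).real (D ∩ cell δ z) + (volume : Measure E2).real (cell δ z \ D) = δ ^ 2 := by
      have h1 : (volume : Measure E2).real (cell δ z) = δ ^ 2 := by
        simp only [Measure.real]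
        rw [volume_cell δ hδ, ENNReal.toReal_ofReal (by positivity)]
      rw [← h1, Set.inter_comm]
      exact measureReal_inter_add_diff hDm (hcellfin z)
    have hge : (f (q z) - ε') * (volume : Measure E2).real (D ∩ cell δ z) ≤ ∫ x in D ∩ cell δ z, f x := by
      apply setIntegral_ge_of_const_le_real (hcellD z)
        (ne_top_of_le_ne_top hDfin (measure_mono inter_subset_left))
      · rintro x ⟨hxD, hxc⟩
        have hdist : dist x (q z) < δ₁ := by
          rw [dist_eq_norm]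
          have := cell_diam δ hδ z x (q z) hxc hqc
          linarith
        have := hd x hxD (q z) hqD hdist
        rw [Real.dist_eq] at this
        linarith [(abs_lt.mp this).1]
      · exact hfint.mono_set inter_subset_left
    have hf1q := hf1 _ hqD
    have hf0q := hf0 _ hqD
    have hb0 : 0 ≤ (volume : Measure E2).real (cell δ z \ D) := measureReal_nonneg
    have h3 : (volume : Measure E2).real (cell δ z \ D) * f (q z) ≤ (volume : Measure E2).real (cell δ z \ D) * 1 :=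
      mul_le_mul_of_nonneg_left hf1q hb0
    rw [← hsplit]
    nlinarith
  calc ∑ z ∈ G, δ ^ 2 * f (q z)
      ≤ ∑ z ∈ G, ((∫ x in D ∩ cell δ z, f x) + ε' * (volume : Measure E2).real (D ∩ cell δ z) +
          (volume : Measure E2).real (cell δ z \ D)) := Finset.sum_le_sum hcell
    _ = (∫ x in D, f x) + ε' * vD + ∑ z ∈ G, (volume : Measure E2).real (cell δ z \ D) := by
        rw [Finset.sum_add_distrib, Finset.sum_add_distrib, ← hintsum, ← Finset.mul_sum, ← hvolsum]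
    _ ≤ (∫ x in D, f x) + ε / 2 + ε / 2 := by
        have : ε' * vD ≤ ε / 2 := by
          rw [hε', div_mul_eq_mul_div, div_le_iff₀ (by positivity)]
          nlinarith
        linarith
    _ = _ := by ring

end Crest.Agent.Lib.Cyl
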