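import Crest.Agent.Lib.Cyl.Ruled3

/-!
# Ruled sets: estimates on one grid cell
-/

open MeasureTheory Measure Set Finset Filter Topology
open scoped ENNReal Pointwise

set_option linter.unusedSectionVars false
set_option linter.unusedVariables false

noncomputable section

namespace Crest.Agent.Lib.Cyl

lemma JJ_continuous (h : ℝ) : Continuous (JJ h) := by
  unfold JJ
  apply Continuous.div continuous_const (by fun_prop)
  intro g
  have := sqrt_ge_one h g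
  linarith

/-- Mean value estimate. -/
lemma mv_bound (V : E2 → E2) (A : E2 → (E2 →L[ℝ] E2)) (q p : E2) (r ω₀ : ℝ) (hr : 0 ≤ r)
    (hd : ∀ x ∈ Metric.closedBall q r, HasFDerivAt V (A x) x)
    (hc : ∀ x ∈ Metric.closedBall q r, ‖A x - A q‖ ≤ ω₀) (hp : ‖p - q‖ ≤ r) :
    ‖V p - V q - A q (p - q)‖ ≤ ω₀ * ‖p - q‖ := by
  let G : E2 → E2 := fun x => V x - A q x
  have hG : ∀ x ∈ Metric.closedBall q r, HasFDerivWithinAt G (A x - A q) (Metric.closedBall q r) x := by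
    intro x hx
    exact ((hd x hx).sub (A q).hasFDerivAt).hasFDerivWithinAt
  have := Convex.norm_image_sub_le_of_norm_hasFDerivWithin_le hG hc (convex_closedBall q r)
    (Metric.mem_closedBall_self hr) (by rw [Metric.mem_closedBall, dist_eq_norm]; exact hp)
  have e : G p - G q = V p - V q - A q (p - q) := by
    simp only [G, map_sub]; abel
  rwa [e] at this

/-- Estimates on one grid cell. -/
lemma per_cell (V : E2 → E2) (h : ℝ) (hh : 0 < h) (F : Frame) (A : E2 →L[ℝ] E2) (β γ : ℝ)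
    (h1 : A F.f1 = γ • F.f2) (h2 : A F.f2 = β • F.f1) (hβγ : 0 ≤ β * γ) (q : E2) (z : ℤ × ℤ)
    (L C κ ω₀ η δ ε₃ ε₄ ρ : ℝ) (hL : 0 < L) (hκ : κ < 1) (hdet : L ^ 2 * (β * γ) ≤ κ) (hC : ‖A‖ ≤ C)
    (hη : 0 < η) (hδ : 0 < δ) (hω₀ : 0 ≤ ω₀) (hρdef : ρ = (2 * (1 + L * C) / (1 - κ)) * (L * (ω₀ * (2 * δ)) + 2 * η))
    (hρ : ρ + 2 * η ≤ ε₃ * δ) (hε₃ : ε₃ ≤ 1) (hε₃0 : 0 ≤ ε₃) (hJ : (1 + h) * (C * (3 * δ)) ≤ ε₄) (hqc : q ∈ cell δ z) :
    (∀ p ∈ cell δ z, ‖V p - V q - A (p - q)‖ ≤ ω₀ * ‖p - q‖ → ∀ s : ℝ, |s| ≤ L →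
      ∃ l ∈ {l : ℤ × ℤ | ∃ p ∈ cell δ z, ‖lat F η l.1 l.2 - (p - q)‖ ≤ ρ},
      ∃ ξ1 ∈ Icc (0 : ℝ) 1, ∃ ξ2 ∈ Icc (0 : ℝ) 1,
        p + s • V p = (q + lat F η l.1 l.2) + ξ1 • (η • F.f1) + ξ2 • (η • F.f2) +
          s • (V q + A (lat F η l.1 l.2))) ∧
    (∀ S : Finset (ℤ × ℤ), (∀ l ∈ S, ∃ p ∈ cell δ z, ‖lat F η l.1 l.2 - (p - q)‖ ≤ ρ) →
      ∑ l ∈ S, η ^ 2 * JJ h (V q + A (lat F η l.1 l.2)) ≤
        (δ + 2 * (ε₃ * δ)) ^ 2 * (JJ h (V q) + ε₄)) := by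
  have hC0 : 0 ≤ C := (norm_nonneg _).trans hC
  have hτ : 0 < 1 - κ := by linarith
  have hρ0 : 0 ≤ ρ := by
    rw [hρdef]; positivity
  constructor
  · intro p hp hr s hs
    obtain ⟨m, n, ξ1, hξ1, ξ2, hξ2, heq, hnear⟩ := point_in_tile F A β γ h1 h2 hβγ V p q s L C κ ω₀ η hs
      hL.le hκ hdet hC hη hr hω₀
    refine ⟨(m, n), ⟨p, hp, ?_⟩, ξ1, hξ1, ξ2, hξ2, heq⟩
    refine hnear.trans ?_
    rw [hρdef]
    apply mul_le_mul_of_nonneg_left _ (by positivity)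
    have hd := cell_diam δ hδ z p q hp hqc
    have : L * (ω₀ * ‖p - q‖) ≤ L * (ω₀ * (2 * δ)) :=
      mul_le_mul_of_nonneg_left (mul_le_mul_of_nonneg_left hd hω₀) hL.le
    linarith
  · intro S hS
    have hcard := count_bound δ hδ z q F η hη ρ hρ0 S hS
    have hJJ : ∀ l ∈ S, JJ h (V q + A (lat F η l.1 l.2)) ≤ JJ h (V q) + ε₄ := by
      intro l hl
      obtain ⟨p, hp, hpl⟩ := hS l hl
      have hd := cell_diam δ hδ z p q hp hqc
      have hy : ‖lat F η l.1 l.2‖ ≤ 3 * δ := by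
        have e : lat F η l.1 l.2 = (lat F η l.1 l.2 - (p - q)) + (p - q) := by abel
        rw [e]
        have h3 := norm_add_le (lat F η l.1 l.2 - (p - q)) (p - q)
        have h4 : ρ ≤ δ := by
          have : ε₃ * δ ≤ 1 * δ := mul_le_mul_of_nonneg_right hε₃ hδ.le
          nlinarith
        linarith
      have hAy : ‖A (lat F η l.1 l.2)‖ ≤ C * (3 * δ) := by
        calc _ ≤ ‖A‖ * ‖lat F η l.1 l.2‖ := A.le_opNorm _
          _ ≤ _ := mul_le_mul hC hy (norm_nonneg _) hC0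
      have := JJ_lip h hh (V q + A (lat F η l.1 l.2)) (V q)
      rw [add_sub_cancel_left] at this
      have h5 : (1 + h) * ‖A (lat F η l.1 l.2)‖ ≤ (1 + h) * (C * (3 * δ)) :=
        mul_le_mul_of_nonneg_left hAy (by positivity)
      have h6 := (abs_le.mp this).2
      linarith
    have hJ0 : 0 ≤ JJ h (V q) + ε₄ := by
      have := JJ_nonneg h (V q)
      have : 0 ≤ ε₄ := le_trans (by positivity) hJ
      positivity
    calc ∑ l ∈ S, η ^ 2 * JJ h (V q + A (lat F η l.1 l.2))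
        ≤ ∑ l ∈ S, η ^ 2 * (JJ h (V q) + ε₄) :=
          Finset.sum_le_sum fun l hl => mul_le_mul_of_nonneg_left (hJJ l hl) (by positivity)
      _ = ((S.card : ℝ) * η ^ 2) * (JJ h (V q) + ε₄) := by
          rw [Finset.sum_const, nsmul_eq_mul]; ring
      _ ≤ (δ + 2 * (ρ + 2 * η)) ^ 2 * (JJ h (V q) + ε₄) :=
          mul_le_mul_of_nonneg_right hcard hJ0
      _ ≤ (δ + 2 * (ε₃ * δ)) ^ 2 * (JJ h (V q) + ε₄) := by
          apply mul_le_mul_of_nonneg_right _ hJ0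
          apply pow_le_pow_left₀ (by positivity)
          linarith

end Crest.Agent.Lib.Cyl
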