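import Crest.Agent.Lib.Cyl.KKFacts

/-!
# Every regular tetrahedron is similar to the standard one
-/

open MeasureTheory Measure Set Finset
open scoped ENNReal Pointwise

set_option linter.unusedSectionVars false
set_option linter.unusedVariables false

noncomputable section

namespace Crest.Agent.Lib.Cyl

/-- Linear isometry from an orthonormal frame. -/
def frameMap (A0 A1 A2 : E3) (h00 : inner ℝ A0 A0 = (1 : ℝ)) (h11 : inner ℝ A1 A1 = (1 : ℝ))
    (h22 : inner ℝ A2 A2 = (1 : ℝ)) (h01 : inner ℝ A0 A1 = (0 : ℝ)) (h02 : inner ℝ A0 A2 = (0 : ℝ))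
    (h12 : inner ℝ A1 A2 = (0 : ℝ)) : E3 →ₗᵢ[ℝ] E3 where
  toFun x := x 0 • A0 + x 1 • A1 + x 2 • A2
  map_add' x y := by
    simp only [PiLp.add_apply, add_smul]; abel
  map_smul' c x := by
    simp [smul_add, smul_smul]
  norm_map' x := by
    have h : ‖x 0 • A0 + x 1 • A1 + x 2 • A2‖ ^ 2 = ‖x‖ ^ 2 := by
      rw [← real_inner_self_eq_norm_sq, norm_sq_E3]
      have h10 : inner ℝ A1 A0 = (0 : ℝ) := by rw [real_inner_comm]; exact h01
      have h20 : inner ℝ A2 A0 = (0 : ℝ) := by rw [real_inner_comm]; exact h02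
      have h21 : inner ℝ A2 A1 = (0 : ℝ) := by rw [real_inner_comm]; exact h12
      simp only [inner_add_left, inner_add_right, inner_smul_left, inner_smul_right,
        h00, h11, h22, h01, h02, h12, h10, h20, h21, conj_trivial]
      ring
    exact (sq_eq_sq₀ (norm_nonneg _) (norm_nonneg _)).mp h

lemma frameMap_apply (A0 A1 A2 : E3) (h00 h11 h22 h01 h02 h12) (x : E3) :
    frameMap A0 A1 A2 h00 h11 h22 h01 h02 h12 x = x 0 • A0 + x 1 • A1 + x 2 • A2 := rfl

/-- Similarity with the standard tetrahedron. -/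
theorem regular_simil (w : Fin 4 → E3) (ℓ : ℝ) (hℓ : 0 < ℓ)
    (hw : ∀ i j, i ≠ j → dist (w i) (w j) = ℓ) :
    ∃ (Q : E3 →ₗᵢ[ℝ] E3) (b0 : E3),
      convexHull ℝ (Set.range w) = (fun x => b0 + (ℓ / 2) • Q x) '' KK := by
  -- squared distances
  have d : ∀ i j, i ≠ j → ‖w i‖ ^ 2 - 2 * inner ℝ (w i) (w j) + ‖w j‖ ^ 2 = ℓ ^ 2 := by
    intro i j hij
    rw [← hw i j hij, dist_eq_norm, norm_sub_sq_real]
  have d01 := d 0 1 (by decide)
  have d02 := d 0 2 (by decide)
  have d03 := d 0 3 (by decide)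
  have d12 := d 1 2 (by decide)
  have d13 := d 1 3 (by decide)
  have d23 := d 2 3 (by decide)
  set s2 := Real.sqrt 2 with hs2
  have hs := sqrt2_sq
  have hs0 := sqrt2_pos
  rw [← hs2] at hs hs0
  set κ := ℓ / 2 with hκ
  have hκ0 : 0 < κ := by positivity
  have hℓκ : ℓ = 2 * κ := by rw [hκ]; ring
  set A0 : E3 := (1 / ℓ) • (w 0 - w 1) with hA0
  set A1 : E3 := (1 / ℓ) • (w 2 - w 3) with hA1
  set A2 : E3 := (1 / (ℓ * s2)) • (w 2 + w 3 - w 0 - w 1) with hA2
  have hℓ2 : ℓ ^ 2 ≠ 0 := by positivity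
  have hne : ℓ ≠ 0 := hℓ.ne'
  have hsne : s2 ≠ 0 := hs0.ne'
  have e1 : inner ℝ (w 1) (w 0) = inner ℝ (w 0) (w 1) := real_inner_comm _ _
  have e2 : inner ℝ (w 2) (w 0) = inner ℝ (w 0) (w 2) := real_inner_comm _ _
  have e3 : inner ℝ (w 3) (w 0) = inner ℝ (w 0) (w 3) := real_inner_comm _ _
  have e4 : inner ℝ (w 2) (w 1) = inner ℝ (w 1) (w 2) := real_inner_comm _ _
  have e5 : inner ℝ (w 3) (w 1) = inner ℝ (w 1) (w 3) := real_inner_comm _ _
  have e6 : inner ℝ (w 3) (w 2) = inner ℝ (w 2) (w 3) := real_inner_comm _ _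
  have n0 : inner ℝ (w 0) (w 0) = ‖w 0‖ ^ 2 := real_inner_self_eq_norm_sq _
  have n1 : inner ℝ (w 1) (w 1) = ‖w 1‖ ^ 2 := real_inner_self_eq_norm_sq _
  have n2 : inner ℝ (w 2) (w 2) = ‖w 2‖ ^ 2 := real_inner_self_eq_norm_sq _
  have n3 : inner ℝ (w 3) (w 3) = ‖w 3‖ ^ 2 := real_inner_self_eq_norm_sq _
  have i00 : inner ℝ (w 0 - w 1) (w 0 - w 1) = ℓ ^ 2 := by
    simp only [inner_sub_left, inner_sub_right, e1, n0, n1]; linarith
  have i11 : inner ℝ (w 2 - w 3) (w 2 - w 3) = ℓ ^ 2 := by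
    simp only [inner_sub_left, inner_sub_right, e6, n2, n3]; linarith
  have i22 : inner ℝ (w 2 + w 3 - w 0 - w 1) (w 2 + w 3 - w 0 - w 1) = 2 * ℓ ^ 2 := by
    simp only [inner_sub_left, inner_sub_right, inner_add_left, inner_add_right,
      e1, e2, e3, e4, e5, e6, n0, n1, n2, n3]
    linarith
  have i01 : inner ℝ (w 0 - w 1) (w 2 - w 3) = (0 : ℝ) := by
    simp only [inner_sub_left, inner_sub_right]; linarith
  have i02 : inner ℝ (w 0 - w 1) (w 2 + w 3 - w 0 - w 1) = (0 : ℝ) := by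
    simp only [inner_sub_left, inner_sub_right, inner_add_right, e1, n0, n1]; linarith
  have i12 : inner ℝ (w 2 - w 3) (w 2 + w 3 - w 0 - w 1) = (0 : ℝ) := by
    simp only [inner_sub_left, inner_sub_right, inner_add_right, e6, n2, n3, e2, e3, e4, e5]; linarith
  have h00 : inner ℝ A0 A0 = (1 : ℝ) := by
    rw [hA0, inner_smul_left, inner_smul_right, i00]
    simp only [conj_trivial]
    field_simp
  have h11 : inner ℝ A1 A1 = (1 : ℝ) := by
    rw [hA1, inner_smul_left, inner_smul_right, i11]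
    simp only [conj_trivial]
    field_simp
  have h22 : inner ℝ A2 A2 = (1 : ℝ) := by
    rw [hA2, inner_smul_left, inner_smul_right, i22]
    simp only [conj_trivial]
    field_simp
    nlinarith
  have h01 : inner ℝ A0 A1 = (0 : ℝ) := by
    rw [hA0, hA1, inner_smul_left, inner_smul_right, i01]; simp
  have h02 : inner ℝ A0 A2 = (0 : ℝ) := by
    rw [hA0, hA2, inner_smul_left, inner_smul_right, i02]; simp
  have h12 : inner ℝ A1 A2 = (0 : ℝ) := by
    rw [hA1, hA2, inner_smul_left, inner_smul_right, i12]; simp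
  let Q := frameMap A0 A1 A2 h00 h11 h22 h01 h02 h12
  set b0 : E3 := (1 / 2 : ℝ) • (w 0 + w 1) with hb0
  refine ⟨Q, b0, ?_⟩
  -- the affine map
  let f : E3 →ᵃ[ℝ] E3 := (κ • Q.toLinearMap).toAffineMap + AffineMap.const ℝ E3 b0
  have hf : ∀ x, f x = b0 + κ • Q x := by
    intro x
    simp [f, add_comm]
  have himg : (fun x => b0 + κ • Q x) '' KK = f '' KK := by
    apply Set.image_congr
    intro x _
    exact (hf x).symm
  rw [himg]
  unfold KK
  rw [f.image_convexHull]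
  congr 1
  have hk1 : κ * (1 / ℓ) = 1 / 2 := by rw [hκ]; field_simp
  have hcoef : κ * (s2 * (1 / (ℓ * s2))) = 1 / 2 := by
    rw [hκ]; field_simp
  have fP1 : f P1 = w 0 := by
    rw [hf, frameMap_apply]
    simp only [P1_0, P1_1, P1_2, one_smul, zero_smul, add_zero]
    rw [hA0, hb0, smul_smul, hk1]
    module
  have fP2 : f P2 = w 1 := by
    rw [hf, frameMap_apply]
    simp only [P2_0, P2_1, P2_2, neg_smul, one_smul, zero_smul, add_zero]
    rw [hA0, hb0, smul_neg, smul_smul, hk1]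
    module
  have fP3 : f P3 = w 2 := by
    rw [hf, frameMap_apply]
    simp only [P3_0, P3_1, P3_2, one_smul, zero_smul, zero_add]
    rw [← hs2, hA1, hA2, hb0, smul_add κ, smul_smul κ, smul_smul s2, smul_smul κ, hcoef, hk1]
    module
  have fP4 : f P4 = w 3 := by
    rw [hf, frameMap_apply]
    simp only [P4_0, P4_1, P4_2, neg_smul, one_smul, zero_smul, zero_add]
    rw [← hs2, hA1, hA2, hb0, smul_add κ, smul_neg κ, smul_smul κ, smul_smul s2, smul_smul κ, hcoef, hk1]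
    module
  simp only [Set.image_insert_eq, Set.image_singleton, fP1, fP2, fP3, fP4]
  ext x
  constructor
  · rintro ⟨i, rfl⟩
    fin_cases i <;> simp
  · intro hx
    simp only [mem_insert_iff, mem_singleton_iff] at hx
    rcases hx with rfl | rfl | rfl | rfl
    · exact ⟨0, rfl⟩
    · exact ⟨1, rfl⟩
    · exact ⟨2, rfl⟩
    · exact ⟨3, rfl⟩

end Crest.Agent.Lib.Cyl
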