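import Crest.Agent.Lib.Cyl.Simil

/-!
# Slicing triangles into parallelograms; open neighbourhoods in a plane; projections of similar images
-/

open MeasureTheory Measure Set Finset Filter Topology
open scoped ENNReal Pointwise

set_option linter.unusedSectionVars false
set_option linter.unusedVariables false

noncomputable section

namespace Crest.Agent.Lib.Cyl

/-! ### Projections of a similar image -/

lemma proj_simil_measure (Q : E3 →ₗᵢ[ℝ] E3) (κ : ℝ) (hκ : 0 < κ) (b0 v : E3) (hv : ‖v‖ = 1)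
    (S : Set E3) :
    ∃ v' : E3, ‖v'‖ = 1 ∧ (μHE[2] (proj v '' ((fun x => b0 + κ • Q x) '' S)) : ℝ≥0∞) =
      ENNReal.ofReal (κ ^ 2) * μHE[2] (proj v' '' S) := by
  let Q' := Q.toLinearIsometryEquiv rfl
  set v' := Q'.symm v with hv'
  have hQv : Q v' = v := by
    have : Q' v' = v := by simp [hv']
    simpa [Q'] using this
  have hv1 : ‖v'‖ = 1 := by
    have := Q.norm_map v'
    rw [hQv, hv] at this
    exact this.symm
  refine ⟨v', hv1, ?_⟩
  have hp : ∀ x, proj v (b0 + κ • Q x) = proj v b0 + κ • Q (proj v' x) := by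
    intro x
    rw [map_add, map_smul]
    congr 2
    rw [proj_apply, proj_apply, map_sub, map_smul, hQv]
    rw [← hQv, Q.inner_map_map]
  have himg : proj v '' ((fun x => b0 + κ • Q x) '' S) =
      (fun y => proj v b0 + y) '' (κ • (Q '' (proj v' '' S))) := by
    ext y
    simp only [mem_image, exists_exists_and_eq_and, hp, Set.mem_smul_set]
  rw [himg, measure_translate, Measure.euclideanHausdorffMeasure_smul₀ 2 hκ.ne',
    Q.isometry.euclideanHausdorffMeasure_image]
  rw [ENNReal.smul_def, smul_eq_mul]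
  congr 1
  rw [ENNReal.ofReal_pow hκ.le]
  have : ((‖κ‖₊ ^ 2 : NNReal) : ℝ≥0∞) = ENNReal.ofReal κ ^ 2 := by
    rw [ENNReal.coe_pow]
    congr 1
    rw [ENNReal.ofReal, Real.toNNReal_of_nonneg hκ.le]
    congr 1
    ext
    simp [abs_of_pos hκ]
  exact this

/-- Lower bound on the projections of a regular tetrahedron. -/
lemma simil_lower (Q : E3 →ₗᵢ[ℝ] E3) (κ : ℝ) (hκ : 0 < κ) (b0 v : E3) (hv : ‖v‖ = 1) :
    κ ^ 2 * Real.sqrt 2 ≤ (μHE[2] (proj v '' ((fun x => b0 + κ • Q x) '' KK)) : ℝ≥0∞).toReal := by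
  obtain ⟨v', hv1, h⟩ := proj_simil_measure Q κ hκ b0 v hv KK
  rw [h, ENNReal.toReal_mul, ENNReal.toReal_ofReal (by positivity)]
  exact mul_le_mul_of_nonneg_left (minproj_toReal v' hv1) (by positivity)

/-! ### Slicing -/

lemma gram_smul (c d : ℝ) (a b : E3) : gram (c • a) (d • b) = (c * d) ^ 2 * gram a b := by
  unfold gram
  rw [norm_smul, norm_smul, inner_smul_left, inner_smul_right]
  simp only [conj_trivial, Real.norm_eq_abs, mul_pow, sq_abs]
  ring

lemma sqrt_gram_smul (c d : ℝ) (hc : 0 ≤ c) (hd : 0 ≤ d) (a b : E3) :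
    Real.sqrt (gram (c • a) (d • b)) = c * d * Real.sqrt (gram a b) := by
  rw [gram_smul, Real.sqrt_mul (by positivity), Real.sqrt_sq (by positivity)]

lemma sum_cast_range (n : ℕ) : ∑ j ∈ Finset.range n, (j : ℝ) = n * (n - 1) / 2 := by
  induction n with
  | zero => simp
  | succ k ih =>
    rw [Finset.sum_range_succ, ih]
    push_cast
    ring

/-- Sum of the slice weights. -/
lemma sum_slice_weights (m : ℕ) (hm : 0 < m) :
    ∑ j : Fin m, (1 / (m : ℝ)) * (1 - (j : ℕ) / (m : ℝ)) = (1 + 1 / (m : ℝ)) * (1 / 2) := by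
  have hm' : (m : ℝ) ≠ 0 := by positivity
  rw [Fin.sum_univ_eq_sum_range (fun j : ℕ => (1 / (m : ℝ)) * (1 - (j : ℝ) / (m : ℝ))) m,
    ← Finset.mul_sum, Finset.sum_sub_distrib, ← Finset.sum_div, sum_cast_range]
  simp only [Finset.sum_const, Finset.card_range, nsmul_eq_mul, mul_one]
  field_simp
  ring

/-- A triangle is covered by `m` parallelograms. -/
lemma slice_cover (p q r x : E3) (m : ℕ) (hm : 0 < m) (hx : x ∈ convexHull ℝ ({p, q, r} : Set E3)) :
    ∃ j : Fin m, ∃ s ∈ Icc (0 : ℝ) 1, ∃ t ∈ Icc (0 : ℝ) 1,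
      x = (p + ((j : ℕ) / (m : ℝ)) • (q - p)) + s • ((1 / (m : ℝ)) • (q - p)) +
        t • ((1 - (j : ℕ) / (m : ℝ)) • (r - p)) := by
  rw [mem_convexHull_triple] at hx
  obtain ⟨l1, l2, l3, h1, h2, h3, hs, rfl⟩ := hx
  have hm' : (0 : ℝ) < m := by exact_mod_cast hm
  have hl2 : l2 ≤ 1 := by linarith
  -- the index
  obtain ⟨j, hj1, hj2, hj3⟩ : ∃ j : ℕ, j < m ∧ (j : ℝ) ≤ l2 * m ∧ l2 * m ≤ j + 1 := by
    by_cases hl : l2 = 1
    · refine ⟨m - 1, by omega, ?_, ?_⟩
      · rw [hl, one_mul]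
        exact_mod_cast Nat.sub_le _ _
      · rw [hl, one_mul, Nat.cast_sub hm]
        simp
    · have hlt : l2 < 1 := lt_of_le_of_ne hl2 hl
      refine ⟨⌊l2 * m⌋₊, ?_, Nat.floor_le (by positivity), (Nat.lt_floor_add_one _).le⟩
      rw [Nat.floor_lt (by positivity)]
      nlinarith
  have hjm : (j : ℝ) + 1 ≤ m := by exact_mod_cast hj1
  set d := 1 - (j : ℝ) / m with hd
  have hdpos : 0 < d := by
    rw [hd, sub_pos, div_lt_one hm']
    linarith
  have hl3d : l3 ≤ d := by
    have : (j : ℝ) / m ≤ l2 := by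
      rw [div_le_iff₀ hm']; exact hj2
    rw [hd]; linarith
  refine ⟨⟨j, hj1⟩, l2 * m - j, ⟨by linarith, by linarith⟩, l3 / d,
    ⟨by positivity, (div_le_one hdpos).mpr hl3d⟩, ?_⟩
  simp only
  have hl1 : l1 = 1 - l2 - l3 := by linarith
  have e1 : (l2 * m - j) * (1 / (m : ℝ)) = l2 - (j : ℝ) / m := by
    field_simp
  have e2 : l3 / d * d = l3 := by field_simp
  rw [smul_smul, smul_smul, e1, ← hd, e2, hl1]
  module

/-! ### Open neighbourhoods -/

lemma isCompact_para (c a b : E3) : IsCompact (para c a b) := by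
  have : para c a b = (fun z : ℝ × ℝ => c + z.1 • a + z.2 • b) '' (Icc (0 : ℝ) 1 ×ˢ Icc (0 : ℝ) 1) := by
    ext x
    constructor
    · rintro ⟨s, hs, t, ht, rfl⟩
      exact ⟨(s, t), ⟨hs, ht⟩, rfl⟩
    · rintro ⟨⟨s, t⟩, ⟨hs, ht⟩, rfl⟩
      exact ⟨s, hs, t, ht, rfl⟩
  rw [this]
  exact (isCompact_Icc.prod isCompact_Icc).image (by fun_prop)

/-- A compact set in a plane has open neighbourhoods of nearly the same area in the plane. -/
lemma exists_open_nbhd (u : E3) (hu : ‖u‖ = 1) (P : Set E3) (hP : IsCompact P)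
    (hPu : ∀ y ∈ P, inner ℝ y u = 0) (ε : ℝ) (hε : 0 < ε) :
    ∃ O : Set E3, IsOpen O ∧ P ⊆ O ∧ Bornology.IsBounded (O ∩ {x | inner ℝ x u = 0}) ∧
      (μHE[2] (O ∩ {x | inner ℝ x u = 0}) : ℝ≥0∞).toReal ≤ (μHE[2] P : ℝ≥0∞).toReal + ε := by
  set H : Set E3 := {x | inner ℝ x u = 0} with hH
  have hHc : IsClosed H := isClosed_eq (by fun_prop) continuous_const
  let μ : Measure E3 := (μHE[2] : Measure E3).restrict H
  have hfin : ∀ r, 0 < r → (μHE[2] (Metric.thickening r P ∩ H) : ℝ≥0∞) < ∞ := by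
    intro r hr
    apply area_lt_top_of_bounded u hu
    · exact (hP.isBounded.thickening).subset inter_subset_left
    · intro y hy
      exact hy.2
  have hμth : ∀ r, μ (Metric.thickening r P) = μHE[2] (Metric.thickening r P ∩ H) := by
    intro r
    exact Measure.restrict_apply (Metric.isOpen_thickening).measurableSet
  have hPH : P ⊆ H := hPu
  have hμP : μ P = μHE[2] P := by
    change ((μHE[2] : Measure E3).restrict H) P = _
    rw [Measure.restrict_apply hP.isClosed.measurableSet, inter_eq_left.mpr hPH]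
  have hPfin : (μHE[2] P : ℝ≥0∞) < ∞ := area_lt_top_of_bounded u hu P hP.isBounded hPu
  have hT := tendsto_measure_thickening_of_isClosed (μ := μ) (s := P)
    ⟨1, one_pos, by rw [hμth]; exact (hfin 1 one_pos).ne⟩ hP.isClosed
  rw [hμP] at hT
  have hlt : (μHE[2] P : ℝ≥0∞) < μHE[2] P + ENNReal.ofReal ε := by
    exact ENNReal.lt_add_right hPfin.ne (by simpa using hε)
  have hev := hT.eventually (gt_mem_nhds hlt)
  obtain ⟨r, hr1, hr2⟩ := (hev.and self_mem_nhdsWithin).exists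
  have hr0 : 0 < r := hr2
  refine ⟨Metric.thickening r P, Metric.isOpen_thickening, Metric.self_subset_thickening hr0 P,
    (hP.isBounded.thickening).subset inter_subset_left, ?_⟩
  rw [hμth] at hr1
  have h3 := (ENNReal.toReal_mono (by simp [hPfin.ne]) hr1.le)
  rw [ENNReal.toReal_add hPfin.ne (by simp), ENNReal.toReal_ofReal hε.le] at h3
  exact h3

end Crest.Agent.Lib.Cyl
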