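import Crest.Agent.Lib.Cyl.Slice

/-!
# Radial sweeps: linear algebra and a single wedge
-/

open MeasureTheory Measure Set Finset Filter Topology
open scoped ENNReal Pointwise

set_option linter.unusedSectionVars false
set_option linter.unusedVariables false

noncomputable section

namespace Crest.Agent.Lib.Cyl

lemma det3_add_left (v w a b : E3) : det3 (v + w) a b = det3 v a b + det3 w a b := by
  simp [det3]; ring

lemma det3_comb (n a b : E3) (x1 y1 x2 y2 : ℝ) :
    det3 n (x1 • a + y1 • b) (x2 • a + y2 • b) = (x1 * y2 - y1 * x2) * det3 n a b := by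
  simp [det3]; ring

lemma det3_coplanar (e w a b : E3) (he : e ≠ 0) (h1 : inner ℝ w e = (0 : ℝ))
    (h2 : inner ℝ a e = (0 : ℝ)) (h3 : inner ℝ b e = (0 : ℝ)) : det3 w a b = 0 := by
  rw [inner_E3] at h1 h2 h3
  have e0 : det3 w a b * e 0 = 0 := by
    unfold det3
    linear_combination (a 1 * b 2 - a 2 * b 1) * h1 + (w 2 * b 1 - w 1 * b 2) * h2 +
      (w 1 * a 2 - w 2 * a 1) * h3
  have e1 : det3 w a b * e 1 = 0 := by
    unfold det3
    linear_combination (a 2 * b 0 - a 0 * b 2) * h1 + (w 0 * b 2 - w 2 * b 0) * h2 +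
      (w 2 * a 0 - w 0 * a 2) * h3
  have e2 : det3 w a b * e 2 = 0 := by
    unfold det3
    linear_combination (a 0 * b 1 - a 1 * b 0) * h1 + (w 1 * b 0 - w 0 * b 1) * h2 +
      (w 0 * a 1 - w 1 * a 0) * h3
  by_contra hne
  apply he
  ext j
  fin_cases j
  · simpa [hne] using e0
  · simpa [hne] using e1
  · simpa [hne] using e2

lemma proj_of_perp (v a : E3) (h : inner ℝ a v = (0 : ℝ)) : proj v a = a := by
  rw [proj_apply, h, zero_smul, sub_zero]

lemma abs_det3_eq_kappa (e a b : E3) (he : ‖e‖ = 1) (ha : inner ℝ a e = (0 : ℝ))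
    (hb : inner ℝ b e = (0 : ℝ)) : |det3 e a b| = Real.sqrt (gram a b) := by
  rw [← sqrt_gram_proj e he, proj_of_perp e a ha, proj_of_perp e b hb]

lemma norm_sq_add_perp (e w : E3) (he : ‖e‖ = 1) (hw : inner ℝ w e = (0 : ℝ)) :
    ‖e + w‖ ^ 2 = 1 + ‖w‖ ^ 2 := by
  rw [norm_add_sq_real, he, real_inner_comm, hw]
  ring

lemma add_perp_ne (e w : E3) (he : ‖e‖ = 1) (hw : inner ℝ w e = (0 : ℝ)) : e + w ≠ 0 := by
  intro h
  have := norm_sq_add_perp e w he hw
  rw [h, norm_zero] at this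
  have h2 := sq_nonneg ‖w‖
  norm_num at this
  nlinarith

lemma norm_add_perp (e w : E3) (he : ‖e‖ = 1) (hw : inner ℝ w e = (0 : ℝ)) :
    ‖e + w‖ = Real.sqrt (1 + ‖w‖ ^ 2) := by
  rw [← norm_sq_add_perp e w he hw, Real.sqrt_sq (norm_nonneg _)]

lemma gram_pos_of_indep (a b : E3) (hab : LinearIndependent ℝ ![a, b]) : 0 < gram a b := by
  have hpair := LinearIndependent.pair_iff.mp hab
  have ha : a ≠ 0 := by
    intro h
    have := hpair 1 0 (by simp [h])
    simp at this
  have hpos : 0 < ‖a‖ ^ 2 := by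
    have := norm_pos_iff.mpr ha
    positivity
  refine lt_of_le_of_ne (gram_nonneg a b) ?_
  intro h0
  -- `b` is a multiple of `a`
  set c := inner ℝ a b / ‖a‖ ^ 2 with hc
  have h1 : ‖b - c • a‖ ^ 2 = gram a b / ‖a‖ ^ 2 := by
    rw [norm_sub_sq_real, norm_smul, inner_smul_right, real_inner_comm]
    unfold gram
    rw [mul_pow, Real.norm_eq_abs, sq_abs, hc]
    field_simp
    ring
  rw [← h0, zero_div] at h1
  have h2 : b - c • a = 0 := by
    have := pow_eq_zero_iff (two_ne_zero) |>.mp h1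
    exact norm_eq_zero.mp this
  have := hpair (-c) 1 (by rw [neg_smul, one_smul, add_comm]; simpa [sub_eq_add_neg] using h2)
  simp at this

lemma affineIndependent_of_gram (p q r : E3) (h : gram (q - p) (r - p) ≠ 0) :
    AffineIndependent ℝ ![p, q, r] := by
  rw [affineIndependent_iff_not_collinear_set]
  intro hcol
  rw [collinear_iff_of_mem (p₀ := p) (by simp)] at hcol
  obtain ⟨v, hv⟩ := hcol
  obtain ⟨c1, h1⟩ := hv q (by simp)
  obtain ⟨c2, h2⟩ := hv r (by simp)
  apply h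
  have e1 : q - p = c1 • v := by rw [h1]; simp
  have e2 : r - p = c2 • v := by rw [h2]; simp
  rw [e1, e2]
  unfold gram
  rw [norm_smul, norm_smul, inner_smul_left, inner_smul_right, real_inner_self_eq_norm_sq]
  simp only [conj_trivial, Real.norm_eq_abs, mul_pow, sq_abs]
  ring

/-- Weights for the triangle with apex `(-d, -m d)` and right side over `ξ = X`. -/
lemma tri_weights (m X d k ξ ζ : ℝ) (hk : 0 < k) (hXd : 0 < X + d) (h1 : -d ≤ ξ) (h2 : ξ ≤ X)
    (h3 : |ζ - m * ξ| ≤ k * (ξ + d)) :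
    ∃ l1 l2 l3 : ℝ, 0 ≤ l1 ∧ 0 ≤ l2 ∧ 0 ≤ l3 ∧ l1 + l2 + l3 = 1 ∧
      ξ = l1 * (-d) + l2 * X + l3 * X ∧
      ζ = l1 * (m * (-d)) + l2 * (m * X - k * (X + d)) + l3 * (m * X + k * (X + d)) := by
  have hne : X + d ≠ 0 := hXd.ne'
  have hkne : k ≠ 0 := hk.ne'
  set D := (ζ - m * ξ) / (k * (X + d)) with hD
  have hDm : D * (k * (X + d)) = ζ - m * ξ := by
    rw [hD]; field_simp
  have hpos : 0 < k * (X + d) := by positivity
  have hDabs : |D| ≤ (ξ + d) / (X + d) := by
    rw [hD, abs_div, abs_of_pos hpos]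
    calc |ζ - m * ξ| / (k * (X + d))
        ≤ (k * (ξ + d)) / (k * (X + d)) := div_le_div_of_nonneg_right h3 hpos.le
      _ = (ξ + d) / (X + d) := by field_simp
  have hD' := abs_le.mp hDabs
  have e : ξ = ((X - ξ) / (X + d)) * (-d) + ((ξ + d) / (X + d)) * X := by field_simp; ring
  have hw : (X - ξ) / (X + d) + (ξ + d) / (X + d) = 1 := by field_simp; ring
  refine ⟨(X - ξ) / (X + d), ((ξ + d) / (X + d) - D) / 2, ((ξ + d) / (X + d) + D) / 2,
    div_nonneg (by linarith) hXd.le, by linarith [hD'.2], by linarith [hD'.1], by linarith, ?_, ?_⟩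
  · conv_lhs => rw [e]
    ring
  · have e2 : ζ = m * ξ + D * (k * (X + d)) := by rw [hDm]; ring
    rw [e2]
    conv_lhs => rw [e]
    ring

end Crest.Agent.Lib.Cyl
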