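import Crest.Agent.Lib.Cyl.Sweep1

/-!
# Radial sweeps: a single wedge, the fundamental theorem, Riemann sums
-/

open MeasureTheory Measure Set Finset Filter Topology
open scoped ENNReal Pointwise

set_option linter.unusedSectionVars false
set_option linter.unusedVariables false

noncomputable section

namespace Crest.Agent.Lib.Cyl

/-- Point with coordinates `(ξ, ζ)` in the plane through `p₀` spanned by `a`, `b`. -/
def planePt (p₀ a b : E3) (ξ ζ : ℝ) : E3 := p₀ + ξ • a + ζ • b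

/-- The wedge cylinder. -/
def wedgeTri (p₀ a b n : E3) (m h X d : ℝ) : Tri :=
  mkTri n (planePt p₀ a b (-d) (m * (-d))) (planePt p₀ a b X (m * X - h / 2 * (X + d)))
    (planePt p₀ a b X (m * X + h / 2 * (X + d)))

lemma proj_unitOf_apply (n y : E3) (hn : n ≠ 0) :
    proj (unitOf n) y = y - (inner ℝ y n / ‖n‖ ^ 2) • n := by
  rw [proj_apply]
  unfold unitOf
  rw [inner_smul_right, smul_smul]
  have : ‖n‖ ≠ 0 := norm_ne_zero_iff.mpr hn
  congr 2
  field_simp

lemma proj_unitOf_self (n : E3) (hn : n ≠ 0) : proj (unitOf n) n = 0 := by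
  rw [proj_unitOf_apply n n hn, real_inner_self_eq_norm_sq]
  have : ‖n‖ ^ 2 ≠ 0 := by
    have := norm_ne_zero_iff.mpr hn
    positivity
  rw [div_self this, one_smul, sub_self]

lemma proj_add_smul (n y : E3) (σ : ℝ) (hn : n ≠ 0) :
    proj (unitOf n) (y + σ • n) = proj (unitOf n) y := by
  rw [map_add, map_smul, proj_unitOf_self n hn, smul_zero, add_zero]

lemma inner_self_eq_of_valid (n p : E3) (hn : n ≠ 0) (h : inner ℝ p (unitOf n) = (0 : ℝ)) :
    inner ℝ p n = (0 : ℝ) := by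
  rw [eq_smul_unitOf n hn, inner_smul_right, h, mul_zero]

/-- Points in the plane triangle are mapped to the base triangle. -/
lemma wedge_proj_mem (p₀ a b n : E3) (m h X d ξ ζ : ℝ) (hh : 0 < h) (hXd : 0 < X + d)
    (h1 : -d ≤ ξ) (h2 : ξ ≤ X) (h3 : |ζ - m * ξ| ≤ h / 2 * (ξ + d)) :
    proj (unitOf n) (planePt p₀ a b ξ ζ) ∈
      convexHull ℝ {(wedgeTri p₀ a b n m h X d).p, (wedgeTri p₀ a b n m h X d).q,
        (wedgeTri p₀ a b n m h X d).r} := by
  obtain ⟨l1, l2, l3, h01, h02, h03, hs, hξ, hζ⟩ :=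
    tri_weights m X d (h / 2) ξ ζ (by positivity) hXd h1 h2 h3
  rw [mem_convexHull_triple]
  refine ⟨l1, l2, l3, h01, h02, h03, hs, ?_⟩
  simp only [wedgeTri, mkTri]
  rw [← map_smul, ← map_smul, ← map_smul, ← map_add, ← map_add]
  congr 1
  have hl1 : l1 = 1 - l2 - l3 := by linarith
  unfold planePt
  rw [hξ, hζ, hl1]
  module

lemma wedge_area (e p₀ a b w : E3) (he : ‖e‖ = 1) (ha : inner ℝ a e = (0 : ℝ))
    (hb : inner ℝ b e = (0 : ℝ)) (hw : inner ℝ w e = (0 : ℝ)) (m h X d : ℝ) (hh : 0 ≤ h) :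
    (wedgeTri p₀ a b (e + w) m h X d).area =
      Real.sqrt (gram a b) * h * (X + d) ^ 2 * (1 / (2 * Real.sqrt (1 + ‖w‖ ^ 2))) := by
  have hn := add_perp_ne e w he hw
  have he0 : e ≠ 0 := by
    intro h; rw [h, norm_zero] at he; norm_num at he
  unfold wedgeTri
  rw [mkTri_area _ _ _ _ hn, norm_add_perp e w he hw]
  have e1 : planePt p₀ a b X (m * X - h / 2 * (X + d)) - planePt p₀ a b (-d) (m * (-d)) =
      (X + d) • a + (m * X - h / 2 * (X + d) - m * (-d)) • b := by
    unfold planePt; module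
  have e2 : planePt p₀ a b X (m * X + h / 2 * (X + d)) - planePt p₀ a b (-d) (m * (-d)) =
      (X + d) • a + (m * X + h / 2 * (X + d) - m * (-d)) • b := by
    unfold planePt; module
  rw [e1, e2, det3_comb, det3_add_left, det3_coplanar e w a b he0 hw ha hb, add_zero, abs_mul,
    abs_det3_eq_kappa e a b he ha hb]
  have e3 : (X + d) * (m * X + h / 2 * (X + d) - m * -d) - (m * X - h / 2 * (X + d) - m * -d) * (X + d)
      = h * (X + d) ^ 2 := by ring
  rw [e3, abs_of_nonneg (by positivity)]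
  have hpos : 0 < Real.sqrt (1 + ‖w‖ ^ 2) := Real.sqrt_pos.mpr (by positivity)
  field_simp

/-- The inner triangle of the wedge. -/
def innerTri (p₀ a b n : E3) (r t0 t1 : ℝ) : Tri :=
  mkTri n p₀ (p₀ + r • (a + t0 • b)) (p₀ + r • (a + t1 • b))

lemma innerTri_area (e p₀ a b w : E3) (he : ‖e‖ = 1) (ha : inner ℝ a e = (0 : ℝ))
    (hb : inner ℝ b e = (0 : ℝ)) (hw : inner ℝ w e = (0 : ℝ)) (r t0 t1 : ℝ) (ht : t0 ≤ t1) :
    (innerTri p₀ a b (e + w) r t0 t1).area =
      Real.sqrt (gram a b) * (t1 - t0) * r ^ 2 * (1 / (2 * Real.sqrt (1 + ‖w‖ ^ 2))) := by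
  have hn := add_perp_ne e w he hw
  have he0 : e ≠ 0 := by
    intro h; rw [h, norm_zero] at he; norm_num at he
  unfold innerTri
  rw [mkTri_area _ _ _ _ hn, norm_add_perp e w he hw]
  have e1 : p₀ + r • (a + t0 • b) - p₀ = r • a + (r * t0) • b := by module
  have e2 : p₀ + r • (a + t1 • b) - p₀ = r • a + (r * t1) • b := by module
  rw [e1, e2, det3_comb, det3_add_left, det3_coplanar e w a b he0 hw ha hb, add_zero, abs_mul,
    abs_det3_eq_kappa e a b he ha hb]
  have e3 : r * (r * t1) - r * t0 * r = (t1 - t0) * r ^ 2 := by ring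
  rw [e3, abs_of_nonneg (mul_nonneg (by linarith) (sq_nonneg r))]
  have hpos : 0 < Real.sqrt (1 + ‖w‖ ^ 2) := Real.sqrt_pos.mpr (by positivity)
  field_simp

/-- The inner triangle consists of projections of radial points. -/
lemma innerTri_subset (p₀ a b n : E3) (r t0 t1 : ℝ) (hr : 0 ≤ r) (ht : t0 ≤ t1) :
    convexHull ℝ {(innerTri p₀ a b n r t0 t1).p, (innerTri p₀ a b n r t0 t1).q,
      (innerTri p₀ a b n r t0 t1).r} ⊆
      proj (unitOf n) '' {x | ∃ τ ∈ Icc t0 t1, ∃ ρ ∈ Icc 0 r, x = p₀ + ρ • (a + τ • b)} := by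
  intro y hy
  rw [mem_convexHull_triple] at hy
  obtain ⟨l1, l2, l3, h1, h2, h3, hs, rfl⟩ := hy
  simp only [innerTri, mkTri]
  by_cases h0 : l2 + l3 = 0
  · have h2' : l2 = 0 := by linarith
    have h3' : l3 = 0 := by linarith
    have h1' : l1 = 1 := by linarith
    subst h2' h3' h1'
    refine ⟨p₀, ⟨t0, ⟨le_refl _, ht⟩, 0, ⟨le_refl _, hr⟩, by simp⟩, by simp⟩
  · have hpos : 0 < l2 + l3 := lt_of_le_of_ne (by positivity) (Ne.symm h0)
    set τ := (l2 * t0 + l3 * t1) / (l2 + l3) with hτ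
    have hτm : τ * (l2 + l3) = l2 * t0 + l3 * t1 := by rw [hτ]; field_simp
    refine ⟨p₀ + (r * (l2 + l3)) • (a + τ • b), ⟨τ, ⟨?_, ?_⟩, r * (l2 + l3), ⟨by positivity, ?_⟩, rfl⟩, ?_⟩
    · rw [hτ, le_div_iff₀ hpos]; nlinarith
    · rw [hτ, div_le_iff₀ hpos]; nlinarith
    · have : l2 + l3 ≤ 1 := by linarith
      nlinarith
    · rw [← map_smul, ← map_smul, ← map_smul, ← map_add, ← map_add]
      congr 1
      have e : (r * (l2 + l3)) • (a + τ • b) = (r * (l2 + l3)) • a + (r * (τ * (l2 + l3))) • b := by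
        module
      rw [e, hτm]
      have hl1 : l1 = 1 - l2 - l3 := by linarith
      rw [hl1]
      module

/-! ### The fundamental theorem for the direction field -/

section FTC

variable {a b : E3} {α β Λ : ℝ} {w : ℝ → E3} {lam : ℝ → ℝ}

lemma sweep_decomp (hlam : ContinuousOn lam (Icc α β))
    (hw' : ∀ t ∈ Icc α β, HasDerivWithinAt w (lam t • (a + t • b)) (Icc α β) t)
    (hΛ : ∀ t ∈ Icc α β, |lam t| ≤ Λ) (c τ : ℝ) (hc : c ∈ Icc α β) (hτ : τ ∈ Icc α β) :
    ∃ A B : ℝ, w τ - w c = A • a + B • b ∧ |A| ≤ Λ * |τ - c| ∧ |B - τ * A| ≤ Λ * |τ - c| ^ 2 := by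
  have hsub : uIcc c τ ⊆ Icc α β := by
    intro x hx
    have := Set.mem_uIcc.mp hx
    rcases this with h | h
    · exact ⟨hc.1.trans h.1, h.2.trans hτ.2⟩
    · exact ⟨hτ.1.trans h.1, h.2.trans hc.2⟩
  have hwc : ContinuousOn w (uIcc c τ) := by
    intro x hx
    exact (hw' x (hsub hx)).continuousWithinAt.mono hsub
  have hlamc : ContinuousOn lam (uIcc c τ) := hlam.mono hsub
  let g : ℝ → E3 := fun σ => lam σ • (a + σ • b)
  have hgc : ContinuousOn g (uIcc c τ) := by
    apply hlamc.smul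
    fun_prop
  have hftc : ∫ σ in c..τ, g σ = w τ - w c := by
    apply intervalIntegral.integral_eq_sub_of_hasDeriv_right hwc _ hgc.intervalIntegrable
    intro x hx
    have hx' : x ∈ Ioo α β := by
      have h1 : min c τ < x := hx.1
      have h2 : x < max c τ := hx.2
      constructor
      · exact lt_of_le_of_lt (le_min hc.1 hτ.1) h1
      · exact lt_of_lt_of_le h2 (max_le hc.2 hτ.2)
    have := (hw' x ⟨hx'.1.le, hx'.2.le⟩).hasDerivAt (Icc_mem_nhds hx'.1 hx'.2)
    exact this.hasDerivWithinAt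
  have hl1 : ContinuousOn (fun σ => σ * lam σ) (uIcc c τ) := continuousOn_id.mul hlamc
  set A := ∫ σ in c..τ, lam σ with hA
  set B := ∫ σ in c..τ, σ * lam σ with hB
  have hsplit : ∫ σ in c..τ, g σ = A • a + B • b := by
    have h1 : ∀ σ, g σ = lam σ • a + (σ * lam σ) • b := by
      intro σ
      simp only [g]
      module
    simp_rw [h1]
    rw [intervalIntegral.integral_add, intervalIntegral.integral_smul_const,
      intervalIntegral.integral_smul_const]
    · exact (hlamc.smul continuousOn_const).intervalIntegrable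
    · exact (hl1.smul continuousOn_const).intervalIntegrable
  refine ⟨A, B, by rw [← hftc, hsplit], ?_, ?_⟩
  · have := intervalIntegral.norm_integral_le_of_norm_le_const (a := c) (b := τ) (f := lam) (C := Λ) ?_
    · simpa using this
    · intro x hx
      exact hΛ x (hsub (Set.uIoc_subset_uIcc hx))
  · have e : B - τ * A = ∫ σ in c..τ, (σ - τ) * lam σ := by
      have h1 : ∀ σ, (σ - τ) * lam σ = σ * lam σ - τ * lam σ := fun σ => by ring
      simp_rw [h1]
      rw [intervalIntegral.integral_sub hl1.intervalIntegrable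
        (hlamc.const_mul τ |>.intervalIntegrable), intervalIntegral.integral_const_mul]
    rw [e]
    have := intervalIntegral.norm_integral_le_of_norm_le_const (a := c) (b := τ)
      (f := fun σ => (σ - τ) * lam σ) (C := |τ - c| * Λ) ?_
    · rw [Real.norm_eq_abs] at this
      refine this.trans (le_of_eq ?_)
      ring
    · intro x hx
      have hx' := Set.uIoc_subset_uIcc hx
      rw [Real.norm_eq_abs, abs_mul]
      have hΛ0 : 0 ≤ |lam x| := abs_nonneg _
      apply mul_le_mul _ (hΛ x (hsub hx')) hΛ0 (abs_nonneg _)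
      have := Set.mem_uIcc.mp hx'
      rw [abs_le]
      rcases this with h | h
      · rw [abs_of_nonneg (by linarith [h.1.trans h.2])]
        constructor <;> linarith [h.1, h.2]
      · rw [abs_of_nonpos (by linarith [h.1.trans h.2])]
        constructor <;> linarith [h.1, h.2]

end FTC

/-- Real-number heart of the inclusion of a sweep point in the wedge. -/
lemma wedge_real (ρ s τ A B L Λ m h M : ℝ) (hL : 0 ≤ L) (hΛ : 0 ≤ Λ) (hh : 0 < h) (hρ : 0 ≤ ρ)
    (hs : |s| ≤ L) (hA : |A| ≤ Λ * h) (hB : |B - τ * A| ≤ Λ * h ^ 2) (hτm : |τ - m| ≤ h / 2)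
    (hM : 4 * (L * Λ) ≤ M) :
    -(M * h) ≤ ρ + s * A ∧ ρ + s * A ≤ ρ + L * Λ * h ∧
      |(ρ * τ + s * B) - m * (ρ + s * A)| ≤ h / 2 * (ρ + s * A + M * h) := by
  have h0 : 0 ≤ L * Λ := by positivity
  have hsA : |s * A| ≤ L * Λ * h := by
    rw [abs_mul]
    calc |s| * |A| ≤ L * (Λ * h) := mul_le_mul hs hA (abs_nonneg _) hL
      _ = _ := by ring
  have hsA' := abs_le.mp hsA
  have hsB : |s * (B - τ * A)| ≤ L * Λ * h ^ 2 := by
    rw [abs_mul]
    calc |s| * |B - τ * A| ≤ L * (Λ * h ^ 2) := mul_le_mul hs hB (abs_nonneg _) hL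
      _ = _ := by ring
  have hMh : 4 * (L * Λ) * h ≤ M * h := mul_le_mul_of_nonneg_right hM hh.le
  refine ⟨by linarith [hsA'.1, mul_nonneg h0 hh.le], by linarith [hsA'.2], ?_⟩
  set ξ := ρ + s * A with hξ
  have e : (ρ * τ + s * B) - m * ξ = (τ - m) * ξ + s * (B - τ * A) := by
    rw [hξ]; ring
  rw [e]
  have h1 : |(τ - m) * ξ| ≤ h / 2 * |ξ| := by
    rw [abs_mul]
    exact mul_le_mul_of_nonneg_right hτm (abs_nonneg _)
  have h2 : |ξ| ≤ ξ + 2 * (L * Λ * h) := by
    rcases le_total 0 ξ with hξ0 | hξ0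
    · rw [abs_of_nonneg hξ0]; linarith [mul_nonneg h0 hh.le]
    · rw [abs_of_nonpos hξ0]
      have : -(L * Λ * h) ≤ ξ := by rw [hξ]; linarith [hsA'.1]
      linarith
  have h3 : h / 2 * |ξ| ≤ h / 2 * (ξ + 2 * (L * Λ * h)) :=
    mul_le_mul_of_nonneg_left h2 (by positivity)
  calc |(τ - m) * ξ + s * (B - τ * A)| ≤ |(τ - m) * ξ| + |s * (B - τ * A)| := abs_add_le _ _
    _ ≤ h / 2 * (ξ + 2 * (L * Λ * h)) + L * Λ * h ^ 2 := by linarith
    _ = h / 2 * ξ + h / 2 * (4 * (L * Λ) * h) := by ring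
    _ ≤ h / 2 * ξ + h / 2 * (M * h) := by
        have := mul_le_mul_of_nonneg_left hMh (by positivity : 0 ≤ h / 2)
        linarith
    _ = _ := by ring

end Crest.Agent.Lib.Cyl
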