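import Crest.Agent.Lib.Cyl.Sweep2

/-!
# Radial sweeps: estimates on a single wedge
-/

open MeasureTheory Measure Set Finset Filter Topology
open scoped ENNReal Pointwise

set_option linter.unusedSectionVars false
set_option linter.unusedVariables false

noncomputable section

namespace Crest.Agent.Lib.Cyl

/-- The piece of the sweep over `[t0, t1]`. -/
def sweepPiece (e a b p₀ : E3) (L : ℝ) (R : ℝ → ℝ) (w : ℝ → E3) (t0 t1 : ℝ) : Set E3 :=
  {x | ∃ τ ∈ Icc t0 t1, ∃ ρ ∈ Icc 0 (R τ), ∃ s : ℝ, |s| ≤ L ∧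
    x = p₀ + ρ • (a + τ • b) + s • (e + w τ)}

lemma per_wedge (e a b p₀ : E3) (he : ‖e‖ = 1)
    (ha : inner ℝ a e = (0 : ℝ)) (hb : inner ℝ b e = (0 : ℝ))
    (hκ : 0 < Real.sqrt (gram a b)) (L : ℝ) (hL : 0 < L) (α β : ℝ)
    (R : ℝ → ℝ) (hR0 : ∀ t ∈ Icc α β, 0 ≤ R t)
    (w : ℝ → E3) (hw : ∀ t ∈ Icc α β, inner ℝ (w t) e = (0 : ℝ))
    (lam : ℝ → ℝ) (hlam : ContinuousOn lam (Icc α β))
    (hw' : ∀ t ∈ Icc α β, HasDerivWithinAt w (lam t • (a + t • b)) (Icc α β) t)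
    (Λ Rm ω M : ℝ) (hΛ0 : 0 < Λ) (hΛ : ∀ t ∈ Icc α β, |lam t| ≤ Λ)
    (hRm : ∀ t ∈ Icc α β, R t ≤ Rm) (hRm0 : 0 ≤ Rm) (hω0 : 0 < ω) (hω1 : ω ≤ 1)
    (hM : M = 4 * (L * Λ) + 1)
    (t0 t1 c : ℝ) (ht01 : t0 < t1) (ht0 : α ≤ t0) (ht1 : t1 ≤ β) (hc0 : t0 ≤ c) (hc1 : c ≤ t1)
    (hmesh : (L * Λ + M) * (t1 - t0) ≤ ω)
    (hRc : ∀ τ ∈ Icc t0 t1, |R τ - R c| ≤ ω)
    (hfc : ∀ τ ∈ Icc t0 t1, |R τ ^ 2 / (2 * Real.sqrt (1 + ‖w τ‖ ^ 2)) -
      R c ^ 2 / (2 * Real.sqrt (1 + ‖w c‖ ^ 2))| ≤ ω)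
    (hint : IntervalIntegrable (fun τ => R τ ^ 2 / (2 * Real.sqrt (1 + ‖w τ‖ ^ 2))) volume t0 t1) :
    ∃ W : Tri,
      (inner ℝ W.p (e + w c) = (0 : ℝ) ∧ inner ℝ W.q (e + w c) = (0 : ℝ) ∧
        inner ℝ W.r (e + w c) = (0 : ℝ)) ∧
      AffineIndependent ℝ ![W.p, W.q, W.r] ∧
      (∀ x ∈ sweepPiece e a b p₀ L R w t0 t1, ∃ y ∈ convexHull ℝ {W.p, W.q, W.r}, ∃ σ : ℝ,
        x = y + σ • (e + w c)) ∧
      |W.area - Real.sqrt (gram a b) * ∫ τ in t0..t1, R τ ^ 2 / (2 * Real.sqrt (1 + ‖w τ‖ ^ 2))| ≤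
        Real.sqrt (gram a b) * (2 * Rm + 3) * ω * (t1 - t0) ∧
      |(μHE[2] ((fun y => y - (inner ℝ y (e + w c) / ‖e + w c‖ ^ 2) • (e + w c)) ''
          sweepPiece e a b p₀ L R w t0 t1) : ℝ≥0∞).toReal -
        Real.sqrt (gram a b) * ∫ τ in t0..t1, R τ ^ 2 / (2 * Real.sqrt (1 + ‖w τ‖ ^ 2))| ≤
        Real.sqrt (gram a b) * (2 * Rm + 3) * ω * (t1 - t0) := by
  set κ := Real.sqrt (gram a b) with hκdef
  set h := t1 - t0 with hh
  have hhpos : 0 < h := by rw [hh]; linarith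
  set m := (t0 + t1) / 2 with hm
  have hcI : c ∈ Icc α β := ⟨ht0.trans hc0, hc1.trans ht1⟩
  have hsubI : ∀ τ ∈ Icc t0 t1, τ ∈ Icc α β := fun τ hτ => ⟨ht0.trans hτ.1, hτ.2.trans ht1⟩
  have hwc := hw c hcI
  have hRc0 := hR0 c hcI
  have hRcm := hRm c hcI
  have hLΛ : 0 ≤ L * Λ := by positivity
  have hM0 : 0 < M := by rw [hM]; linarith
  set n := e + w c with hn
  have hn0 : n ≠ 0 := add_perp_ne e (w c) he hwc
  set X := R c + ω + L * Λ * h with hX
  set d := M * h with hd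
  have hXd : X + d = R c + ω + (L * Λ + M) * h := by rw [hX, hd]; ring
  have hXdpos : 0 < X + d := by
    rw [hXd]; positivity
  set W := wedgeTri p₀ a b n m h X d with hW
  set Jc := 1 / (2 * Real.sqrt (1 + ‖w c‖ ^ 2)) with hJc
  have hsq1 : 1 ≤ Real.sqrt (1 + ‖w c‖ ^ 2) := by
    rw [Real.one_le_sqrt]; nlinarith [sq_nonneg ‖w c‖]
  have hJpos : 0 < Jc := by rw [hJc]; positivity
  have hJle : Jc ≤ 1 / 2 := by
    rw [hJc]
    apply one_div_le_one_div_of_le (by norm_num)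
    linarith
  have hWarea : W.area = κ * h * (X + d) ^ 2 * Jc := wedge_area e p₀ a b (w c) he ha hb hwc m h X d hhpos.le
  have hWareapos : 0 < W.area := by rw [hWarea]; positivity
  have hvalid : W.Valid := mkTri_valid _ _ _ _ hn0
  have hprojfun : (fun y => y - (inner ℝ y n / ‖n‖ ^ 2) • n) = proj (unitOf n) := by
    ext1 y
    rw [proj_unitOf_apply n y hn0]
  -- Points of the piece project into the triangle
  have hmem : ∀ x ∈ sweepPiece e a b p₀ L R w t0 t1, proj (unitOf n) x ∈ convexHull ℝ {W.p, W.q, W.r} := by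
    rintro x ⟨τ, hτ, ρ, hρ, s, hs, rfl⟩
    have hτI := hsubI τ hτ
    obtain ⟨A, B, hAB, hA, hB⟩ := sweep_decomp hlam hw' hΛ c τ hcI hτI
    have hτc : |τ - c| ≤ h := by
      rw [abs_le, hh]; constructor <;> linarith [hτ.1, hτ.2]
    have hτc0 := abs_nonneg (τ - c)
    have hA' : |A| ≤ Λ * h := hA.trans (mul_le_mul_of_nonneg_left hτc hΛ0.le)
    have hB' : |B - τ * A| ≤ Λ * h ^ 2 :=
      hB.trans (mul_le_mul_of_nonneg_left (pow_le_pow_left₀ hτc0 hτc 2) hΛ0.le)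
    have hτm : |τ - m| ≤ h / 2 := by
      rw [abs_le, hm, hh]; constructor <;> linarith [hτ.1, hτ.2]
    obtain ⟨h1, h2, h3⟩ := wedge_real ρ s τ A B L Λ m h M hL.le hΛ0.le hhpos hρ.1 hs hA' hB' hτm
      (by rw [hM]; linarith)
    have hwτ : w τ = w c + A • a + B • b := by
      have : w τ = w c + (w τ - w c) := by abel
      rw [this, hAB, add_assoc]
    have hx : p₀ + ρ • (a + τ • b) + s • (e + w τ) =
        planePt p₀ a b (ρ + s * A) (ρ * τ + s * B) + s • n := by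
      rw [hwτ, hn]
      unfold planePt
      module
    rw [hx, proj_add_smul _ _ _ hn0]
    apply wedge_proj_mem p₀ a b n m h X d _ _ hhpos hXdpos h1
    · have := hRc τ hτ
      have hρ2 := hρ.2
      have h4 := (abs_le.mp this).2
      rw [hX]
      linarith
    · exact h3
  have hinnerperp : ∀ y : E3, inner ℝ y (unitOf n) = (0 : ℝ) → inner ℝ y n = (0 : ℝ) :=
    fun y hy => inner_self_eq_of_valid n y hn0 hy
  -- lower bound triangle
  set r' := max (R c - ω) 0 with hr'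
  have hr'0 : 0 ≤ r' := le_max_right _ _
  have hr'sq : R c ^ 2 - 2 * R c * ω ≤ r' ^ 2 := by
    rcases le_total ω (R c) with hle | hle
    · rw [hr', max_eq_left (by linarith)]
      nlinarith [sq_nonneg ω]
    · have : R c * (R c - 2 * ω) ≤ 0 := by
        apply mul_nonpos_of_nonneg_of_nonpos hRc0; linarith
      nlinarith [sq_nonneg r']
  set Tin := innerTri p₀ a b n r' t0 t1 with hTin
  have hTinarea : Tin.area = κ * h * r' ^ 2 * Jc :=
    innerTri_area e p₀ a b (w c) he ha hb hwc r' t0 t1 ht01.le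
  have hinsub : convexHull ℝ {Tin.p, Tin.q, Tin.r} ⊆ proj (unitOf n) '' sweepPiece e a b p₀ L R w t0 t1 := by
    refine (innerTri_subset p₀ a b n r' t0 t1 hr'0 ht01.le).trans (image_mono ?_)
    rintro x ⟨τ, hτ, ρ, hρ, rfl⟩
    refine ⟨τ, hτ, ρ, ⟨hρ.1, ?_⟩, 0, by simpa using hL.le, by simp⟩
    refine hρ.2.trans ?_
    rw [hr']
    apply max_le
    · have := hRc τ hτ
      linarith [(abs_le.mp this).1]
    · exact hR0 τ (hsubI τ hτ)
  have hupper : proj (unitOf n) '' sweepPiece e a b p₀ L R w t0 t1 ⊆ convexHull ℝ {W.p, W.q, W.r} := by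
    rintro _ ⟨x, hx, rfl⟩
    exact hmem x hx
  -- measure bounds
  set μi := (μHE[2] (proj (unitOf n) '' sweepPiece e a b p₀ L R w t0 t1) : ℝ≥0∞) with hμi
  have hμ_up : μi ≤ ENNReal.ofReal W.area := by
    rw [← W.measure_eq]; exact measure_mono hupper
  have hμ_fin : μi ≠ ∞ := ne_top_of_le_ne_top ENNReal.ofReal_ne_top hμ_up
  have hv_up : μi.toReal ≤ W.area := by
    have := ENNReal.toReal_mono ENNReal.ofReal_ne_top hμ_up
    rwa [ENNReal.toReal_ofReal hWareapos.le] at this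
  have hv_lo : Tin.area ≤ μi.toReal := by
    rw [← Tin.measure_toReal]
    exact ENNReal.toReal_mono hμ_fin (measure_mono hinsub)
  -- integral estimate
  set f : ℝ → ℝ := fun τ => R τ ^ 2 / (2 * Real.sqrt (1 + ‖w τ‖ ^ 2)) with hf
  have hfcval : f c = R c ^ 2 * Jc := by
    simp only [hf, hJc]; ring
  have hintbd : |(∫ τ in t0..t1, f τ) - h * f c| ≤ ω * h := by
    have e1 : (∫ τ in t0..t1, f τ) - h * f c = ∫ τ in t0..t1, (f τ - f c) := by
      rw [intervalIntegral.integral_sub hint intervalIntegrable_const, intervalIntegral.integral_const,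
        smul_eq_mul]
    rw [e1]
    have := intervalIntegral.norm_integral_le_of_norm_le_const (a := t0) (b := t1)
      (f := fun τ => f τ - f c) (C := ω) ?_
    · rw [Real.norm_eq_abs] at this
      rw [abs_of_pos (by linarith : 0 < t1 - t0)] at this
      exact this
    · intro x hx
      rw [Set.uIoc_of_le ht01.le] at hx
      rw [Real.norm_eq_abs]
      exact hfc x ⟨hx.1.le, hx.2⟩
  have hintbd' := abs_le.mp hintbd
  set G := κ * ∫ τ in t0..t1, f τ with hG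
  have hE1 : G - κ * (h * f c) ≤ κ * (ω * h) := by
    have := mul_le_mul_of_nonneg_left hintbd'.2 hκ.le
    rw [hG]; linarith
  have hE2 : κ * (h * f c) - G ≤ κ * (ω * h) := by
    have := mul_le_mul_of_nonneg_left hintbd'.1 hκ.le
    rw [hG]; linarith
  -- area vs E
  have hκh : 0 ≤ κ * h := by positivity
  have hRmbd : R c ≤ Rm := hRcm
  have hcmp : (X + d) ^ 2 * Jc - R c ^ 2 * Jc ≤ (2 * Rm + 2) * ω := by
    have hK := hmesh
    have hξ0 : 0 < ω + (L * Λ + M) * h := by positivity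
    have hξ1 : ω + (L * Λ + M) * h ≤ 2 * ω := by linarith
    have e : (X + d) ^ 2 - R c ^ 2 = (ω + (L * Λ + M) * h) * (2 * R c + (ω + (L * Λ + M) * h)) := by
      rw [hXd]; ring
    have h1 : (X + d) ^ 2 - R c ^ 2 ≤ 2 * ω * (2 * Rm + 2) := by
      rw [e]
      apply mul_le_mul hξ1 _ (by positivity) (by positivity)
      linarith
    have h2 : 0 ≤ (X + d) ^ 2 - R c ^ 2 := by
      rw [e]; positivity
    have h3 : ((X + d) ^ 2 - R c ^ 2) * Jc ≤ (2 * ω * (2 * Rm + 2)) * (1 / 2) :=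
      mul_le_mul h1 hJle hJpos.le (by positivity)
    nlinarith
  have hcmp0 : 0 ≤ (X + d) ^ 2 * Jc - R c ^ 2 * Jc := by
    have e : (X + d) ^ 2 - R c ^ 2 = (ω + (L * Λ + M) * h) * (2 * R c + (ω + (L * Λ + M) * h)) := by
      rw [hXd]; ring
    have h2 : 0 ≤ (X + d) ^ 2 - R c ^ 2 := by
      rw [e]; positivity
    have := mul_nonneg h2 hJpos.le
    nlinarith
  have hAE1 : W.area - κ * (h * f c) ≤ κ * h * ((2 * Rm + 2) * ω) := by
    rw [hWarea, hfcval]
    have := mul_le_mul_of_nonneg_left hcmp hκh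
    nlinarith
  have hAE0 : 0 ≤ W.area - κ * (h * f c) := by
    rw [hWarea, hfcval]
    have := mul_nonneg hκh hcmp0
    nlinarith
  have hinE : κ * (h * f c) - Tin.area ≤ κ * h * (Rm * ω) := by
    rw [hTinarea, hfcval]
    have h1 : (R c ^ 2 - r' ^ 2) * Jc ≤ (2 * R c * ω) * (1 / 2) := by
      apply mul_le_mul (by linarith) hJle hJpos.le (by positivity)
    have h2 : (2 * R c * ω) * (1 / 2) ≤ Rm * ω := by
      have := mul_le_mul_of_nonneg_right hRmbd hω0.le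
      linarith
    have h3 := mul_le_mul_of_nonneg_left (h1.trans h2) hκh
    nlinarith
  have hκω : 0 ≤ κ * h * ω := by positivity
  have hgoal_eq : κ * (2 * Rm + 3) * ω * h = κ * h * ((2 * Rm + 2) * ω) + κ * (ω * h) := by ring
  have hRmω : 0 ≤ κ * h * (Rm * ω) := by positivity
  refine ⟨W, ?_, ?_, ?_, ?_, ?_⟩
  · exact ⟨hinnerperp _ hvalid.2.1, hinnerperp _ hvalid.2.2.1, hinnerperp _ hvalid.2.2.2⟩
  · apply affineIndependent_of_gram
    intro h0
    have : W.area = 0 := by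
      unfold Tri.area
      rw [h0]; simp
    linarith
  · intro x hx
    refine ⟨proj (unitOf n) x, hmem x hx, inner ℝ x (unitOf n) / ‖n‖, ?_⟩
    have hsm : ∀ σ : ℝ, (σ / ‖n‖) • n = σ • unitOf n := by
      intro σ
      unfold unitOf
      rw [smul_smul]
      congr 1
      ring
    rw [proj_apply, hsm, sub_add_cancel]
  · rw [abs_le, hgoal_eq]
    constructor <;> linarith
  · rw [hprojfun, abs_le, hgoal_eq]
    have h1 : κ * h * (Rm * ω) ≤ κ * h * ((2 * Rm + 2) * ω) := by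
      apply mul_le_mul_of_nonneg_left _ hκh
      nlinarith
    constructor <;> linarith

end Crest.Agent.Lib.Cyl
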