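import Crest.Agent.Lib.Cyl.MinProj

/-!
# Triangular cylinder data
-/

open MeasureTheory Measure Set
open scoped ENNReal

set_option linter.unusedSectionVars false
set_option linter.unusedVariables false

noncomputable section

namespace Crest.Agent.Lib.Cyl

/-- Data of a cylinder with triangular base. -/
structure Tri where
  u : E3
  p : E3
  q : E3
  r : E3

namespace Tri

/-- The cylinder. -/
def cyl (D : Tri) : Set E3 :=
  {x | ∃ b ∈ convexHull ℝ {D.p, D.q, D.r}, ∃ t : ℝ, x = b + t • D.u}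

/-- The area of the base. -/
def area (D : Tri) : ℝ := 1 / 2 * Real.sqrt (gram (D.q - D.p) (D.r - D.p))

/-- Validity: unit direction, perpendicular base. -/
def Valid (D : Tri) : Prop :=
  ‖D.u‖ = 1 ∧ inner ℝ D.p D.u = 0 ∧ inner ℝ D.q D.u = 0 ∧ inner ℝ D.r D.u = 0

lemma area_nonneg (D : Tri) : 0 ≤ D.area := by unfold area; positivity

lemma measure_eq (D : Tri) :
    (μHE[2] (convexHull ℝ {D.p, D.q, D.r}) : ℝ≥0∞) = ENNReal.ofReal D.area :=
  area_triangle _ _ _

lemma measure_toReal (D : Tri) :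
    (μHE[2] (convexHull ℝ {D.p, D.q, D.r}) : ℝ≥0∞).toReal = D.area :=
  area_triangle_toReal _ _ _

end Tri

/-- Normalize a vector. -/
def unitOf (n : E3) : E3 := (1 / ‖n‖) • n

lemma norm_unitOf (n : E3) (hn : n ≠ 0) : ‖unitOf n‖ = 1 := by
  unfold unitOf
  rw [norm_smul, norm_div, norm_one, norm_norm]
  field_simp

lemma eq_smul_unitOf (n : E3) (hn : n ≠ 0) : n = ‖n‖ • unitOf n := by
  unfold unitOf
  rw [smul_smul]
  have : ‖n‖ * (1 / ‖n‖) = 1 := by
    have : ‖n‖ ≠ 0 := norm_ne_zero_iff.mpr hn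
    field_simp
  rw [this, one_smul]

/-- The cylinder over the triangle `A B C` in the direction `n`. -/
def mkTri (n A B C : E3) : Tri :=
  ⟨unitOf n, proj (unitOf n) A, proj (unitOf n) B, proj (unitOf n) C⟩

lemma mkTri_valid (n A B C : E3) (hn : n ≠ 0) : (mkTri n A B C).Valid := by
  have hu := norm_unitOf n hn
  exact ⟨hu, inner_proj_self _ hu _, inner_proj_self _ hu _, inner_proj_self _ hu _⟩

lemma mem_mkTri_cyl (n A B C b x : E3) (hn : n ≠ 0) (σ : ℝ)
    (hb : b ∈ convexHull ℝ ({A, B, C} : Set E3)) (hx : x = b + σ • n) :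
    x ∈ (mkTri n A B C).cyl := by
  refine ⟨proj (unitOf n) b, ?_, inner ℝ b (unitOf n) + σ * ‖n‖, ?_⟩
  · have h1 := (proj (unitOf n)).image_convexHull ({A, B, C} : Set E3)
    have h2 : (proj (unitOf n) '' ({A, B, C} : Set E3)) =
        {proj (unitOf n) A, proj (unitOf n) B, proj (unitOf n) C} := by
      simp [Set.image_insert_eq]
    change proj (unitOf n) b ∈ convexHull ℝ
      {proj (unitOf n) A, proj (unitOf n) B, proj (unitOf n) C}
    rw [← h2, ← h1]
    exact mem_image_of_mem _ hb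
  · simp only [mkTri]
    rw [hx, proj_apply, add_smul, mul_smul]
    conv_lhs => rw [eq_smul_unitOf n hn]
    rw [smul_comm σ]
    abel

lemma det3_smul_left (c : ℝ) (v a b : E3) : det3 (c • v) a b = c * det3 v a b := by
  simp [det3]; ring

lemma mkTri_area (n A B C : E3) (hn : n ≠ 0) :
    (mkTri n A B C).area = 1 / 2 * |det3 n (B - A) (C - A)| / ‖n‖ := by
  have hu := norm_unitOf n hn
  unfold Tri.area
  simp only [mkTri]
  rw [← map_sub, ← map_sub, sqrt_gram_proj _ hu]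
  unfold unitOf
  rw [det3_smul_left, abs_mul, abs_of_nonneg (by positivity)]
  have : ‖n‖ ≠ 0 := norm_ne_zero_iff.mpr hn
  field_simp

/-! ### Similarities -/

/-- Image of a cylinder by `x ↦ b₀ + κ Q x`. -/
def Tri.simil (D : Tri) (Q : E3 →ₗᵢ[ℝ] E3) (κ : ℝ) (b0 : E3) : Tri :=
  ⟨Q D.u, proj (Q D.u) b0 + κ • Q D.p, proj (Q D.u) b0 + κ • Q D.q, proj (Q D.u) b0 + κ • Q D.r⟩

lemma Tri.simil_valid (D : Tri) (hD : D.Valid) (Q : E3 →ₗᵢ[ℝ] E3) (κ : ℝ) (b0 : E3) :
    (D.simil Q κ b0).Valid := by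
  obtain ⟨h0, h1, h2, h3⟩ := hD
  have hu : ‖Q D.u‖ = 1 := by rw [Q.norm_map, h0]
  refine ⟨hu, ?_, ?_, ?_⟩ <;>
  · simp only [simil]
    rw [inner_add_left, inner_proj_self _ hu, inner_smul_left, Q.inner_map_map]
    simp [h1, h2, h3]

lemma Tri.simil_area (D : Tri) (Q : E3 →ₗᵢ[ℝ] E3) (κ : ℝ) (hκ : 0 ≤ κ) (b0 : E3) :
    (D.simil Q κ b0).area = κ ^ 2 * D.area := by
  unfold area
  simp only [simil]
  have e1 : proj (Q D.u) b0 + κ • Q D.q - (proj (Q D.u) b0 + κ • Q D.p) = κ • Q (D.q - D.p) := by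
    simp [smul_sub]
  have e2 : proj (Q D.u) b0 + κ • Q D.r - (proj (Q D.u) b0 + κ • Q D.p) = κ • Q (D.r - D.p) := by
    simp [smul_sub]
  rw [e1, e2]
  have : gram (κ • Q (D.q - D.p)) (κ • Q (D.r - D.p)) = (κ ^ 2) ^ 2 * gram (D.q - D.p) (D.r - D.p) := by
    unfold gram
    rw [norm_smul, norm_smul, inner_smul_left, inner_smul_right, Q.norm_map, Q.norm_map, Q.inner_map_map]
    simp [abs_of_nonneg hκ]
    ring
  rw [this, Real.sqrt_mul (by positivity), Real.sqrt_sq (by positivity)]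
  ring

lemma Tri.simil_cyl (D : Tri) (hD : D.Valid) (Q : E3 →ₗᵢ[ℝ] E3) (κ : ℝ) (b0 x : E3)
    (hx : x ∈ D.cyl) : b0 + κ • Q x ∈ (D.simil Q κ b0).cyl := by
  obtain ⟨b, hb, t, rfl⟩ := hx
  have hu : ‖Q D.u‖ = 1 := by rw [Q.norm_map, hD.1]
  refine ⟨proj (Q D.u) b0 + κ • Q b, ?_, inner ℝ b0 (Q D.u) + κ * t, ?_⟩
  · simp only [simil]
    -- image of the hull under an affine map
    rw [mem_convexHull_triple] at hb ⊢
    obtain ⟨l1, l2, l3, h1, h2, h3, hs, rfl⟩ := hb
    refine ⟨l1, l2, l3, h1, h2, h3, hs, ?_⟩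
    have hl : l1 = 1 - l2 - l3 := by linarith
    subst hl
    simp only [map_add, map_sub, map_smul, smul_add, sub_smul, one_smul, smul_sub, smul_comm κ]
    abel
  · simp only [simil]
    rw [proj_apply, map_add, map_smul, add_smul, mul_smul]
    simp only [smul_add]
    abel

end Crest.Agent.Lib.Cyl
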